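import Mathlib

/-! # P227: concrete soft walls

`wall k t = log (1 + exp ((k+1)(t-1)) + exp (-(k+1)(t+1)))` is even, smooth, convex, all its
derivatives of order at least one are bounded, and it converges to the hard wall of `[-1,1]`. -/

open Filter Topology
open scoped ContDiff

namespace Vale.Agent.P227.M

/-- the argument of the logarithm -/
noncomputable def wg (K t : ℝ) : ℝ := 1 + Real.exp (K * (t - 1)) + Real.exp (-(K * (t + 1)))

/-- weight of the right exponential -/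
noncomputable def wp (K t : ℝ) : ℝ := Real.exp (K * (t - 1)) / wg K t

/-- weight of the left exponential -/
noncomputable def wq (K t : ℝ) : ℝ := Real.exp (-(K * (t + 1))) / wg K t

/-- the wall with slope `K` -/
noncomputable def wW (K t : ℝ) : ℝ := Real.log (wg K t)

/-- first derivative of the wall -/
noncomputable def wW1 (K t : ℝ) : ℝ := K * (wp K t - wq K t)

/-- second derivative of the wall -/
noncomputable def wW2 (K t : ℝ) : ℝ := K ^ 2 * (wp K t + wq K t - (wp K t - wq K t) ^ 2)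

/-- third derivative of the wall -/
noncomputable def wW3 (K t : ℝ) : ℝ :=
  K ^ 3 * ((wp K t - wq K t) * (1 - 3 * (wp K t + wq K t) + 2 * (wp K t - wq K t) ^ 2))

/-- the concrete soft wall -/
noncomputable def wall (k : ℕ) (t : ℝ) : ℝ := wW ((k : ℝ) + 1) t

theorem wg_pos (K t : ℝ) : 0 < wg K t := by unfold wg; positivity

theorem one_lt_wg (K t : ℝ) : 1 < wg K t := by
  unfold wg
  have h1 := Real.exp_pos (K * (t - 1))
  have h2 := Real.exp_pos (-(K * (t + 1)))
  linarith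

theorem wp_pos (K t : ℝ) : 0 < wp K t := div_pos (Real.exp_pos _) (wg_pos K t)

theorem wq_pos (K t : ℝ) : 0 < wq K t := div_pos (Real.exp_pos _) (wg_pos K t)

theorem wpq_lt (K t : ℝ) : wp K t + wq K t < 1 := by
  unfold wp wq
  rw [← add_div, div_lt_one (wg_pos K t)]
  unfold wg
  linarith

theorem wg_even (K t : ℝ) : wg K (-t) = wg K t := by
  unfold wg
  have h1 : K * (-t - 1) = -(K * (t + 1)) := by ring
  have h2 : -(K * (-t + 1)) = K * (t - 1) := by ring
  rw [h1, h2]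
  ring

theorem wp_neg (K t : ℝ) : wp K (-t) = wq K t := by
  unfold wp wq
  rw [wg_even]
  congr 2
  ring

theorem wq_neg (K t : ℝ) : wq K (-t) = wp K t := by
  unfold wp wq
  rw [wg_even]
  congr 2
  ring

theorem wW_even (K t : ℝ) : wW K (-t) = wW K t := by
  unfold wW
  rw [wg_even]

theorem wW1_odd (K t : ℝ) : wW1 K (-t) = -wW1 K t := by
  unfold wW1
  rw [wp_neg, wq_neg]
  ring

theorem hasDerivAt_wg (K t : ℝ) :
    HasDerivAt (wg K) (K * Real.exp (K * (t - 1)) - K * Real.exp (-(K * (t + 1)))) t := by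
  have h1 : HasDerivAt (fun t : ℝ => K * (t - 1)) K t := by
    simpa using ((hasDerivAt_id t).sub_const 1).const_mul K
  have h2 : HasDerivAt (fun t : ℝ => -(K * (t + 1))) (-K) t := by
    have h := ((hasDerivAt_id t).add_const 1).const_mul (-K)
    refine (h.congr_deriv (by ring)).congr_of_eventuallyEq (Eventually.of_forall fun s => ?_)
    simp only [id]
    ring
  have h3 := (h1.exp.const_add 1).add h2.exp
  refine (h3.congr_deriv ?_)
  ring

theorem hasDerivAt_wp (K t : ℝ) :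
    HasDerivAt (wp K) (K * wp K t * (1 - wp K t + wq K t)) t := by
  have h1 : HasDerivAt (fun t : ℝ => K * (t - 1)) K t := by
    simpa using ((hasDerivAt_id t).sub_const 1).const_mul K
  have h3 := h1.exp.div (hasDerivAt_wg K t) (wg_pos K t).ne'
  refine (h3.congr_deriv ?_)
  have hg := (wg_pos K t).ne'
  unfold wp wq
  field_simp
  ring

theorem hasDerivAt_wq (K t : ℝ) :
    HasDerivAt (wq K) (-(K * wq K t * (1 + wp K t - wq K t))) t := by
  have h2 : HasDerivAt (fun t : ℝ => -(K * (t + 1))) (-K) t := by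
    have h := ((hasDerivAt_id t).add_const 1).const_mul (-K)
    refine (h.congr_deriv (by ring)).congr_of_eventuallyEq (Eventually.of_forall fun s => ?_)
    simp only [id]
    ring
  have h3 := h2.exp.div (hasDerivAt_wg K t) (wg_pos K t).ne'
  refine (h3.congr_deriv ?_)
  have hg := (wg_pos K t).ne'
  unfold wp wq
  field_simp
  ring

theorem hasDerivAt_wW (K t : ℝ) : HasDerivAt (wW K) (wW1 K t) t := by
  have h := (hasDerivAt_wg K t).log (wg_pos K t).ne'
  refine h.congr_deriv ?_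
  unfold wW1 wp wq
  ring

theorem hasDerivAt_wW1 (K t : ℝ) : HasDerivAt (wW1 K) (wW2 K t) t := by
  have h := ((hasDerivAt_wp K t).sub (hasDerivAt_wq K t)).const_mul K
  refine h.congr_deriv ?_
  unfold wW2
  ring

theorem hasDerivAt_wW2 (K t : ℝ) : HasDerivAt (wW2 K) (wW3 K t) t := by
  have h := (((hasDerivAt_wp K t).add (hasDerivAt_wq K t)).sub
    (((hasDerivAt_wp K t).sub (hasDerivAt_wq K t)).pow 2)).const_mul (K ^ 2)
  refine (h.congr_deriv ?_)
  unfold wW3
  simp only [Pi.sub_apply]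
  ring

theorem wW1_bound {K : ℝ} (hK : 0 ≤ K) (t : ℝ) : |wW1 K t| ≤ K := by
  have h1 := wp_pos K t
  have h2 := wq_pos K t
  have h3 := wpq_lt K t
  unfold wW1
  rw [abs_mul, abs_of_nonneg hK]
  have h4 : |wp K t - wq K t| ≤ 1 := abs_le.2 ⟨by linarith, by linarith⟩
  nlinarith

theorem wW2_nonneg (K t : ℝ) : 0 ≤ wW2 K t := by
  have h1 := wp_pos K t
  have h2 := wq_pos K t
  have h3 := wpq_lt K t
  unfold wW2
  refine mul_nonneg (sq_nonneg K) ?_
  nlinarith [mul_pos h1 h2]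

theorem wW2_pos {K : ℝ} (hK : 0 < K) (t : ℝ) : 0 < wW2 K t := by
  have h1 := wp_pos K t
  have h2 := wq_pos K t
  have h3 := wpq_lt K t
  unfold wW2
  refine mul_pos (by positivity) ?_
  nlinarith [mul_pos h1 h2]

theorem wW2_le (K t : ℝ) : wW2 K t ≤ K ^ 2 := by
  have h1 := wp_pos K t
  have h2 := wq_pos K t
  have h3 := wpq_lt K t
  unfold wW2
  have h4 : wp K t + wq K t - (wp K t - wq K t) ^ 2 ≤ 1 := by nlinarith [sq_nonneg (wp K t - wq K t)]
  nlinarith [sq_nonneg K]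

theorem wW3_bound {K : ℝ} (hK : 0 ≤ K) (t : ℝ) : |wW3 K t| ≤ 2 * K ^ 3 := by
  have h1 := wp_pos K t
  have h2 := wq_pos K t
  have h3 := wpq_lt K t
  unfold wW3
  rw [abs_mul, abs_of_nonneg (pow_nonneg hK 3), abs_mul]
  have h4 : |wp K t - wq K t| ≤ 1 := abs_le.2 ⟨by linarith, by linarith⟩
  have h5 : (wp K t - wq K t) ^ 2 ≤ wp K t + wq K t := by nlinarith [mul_pos h1 h2]
  have h6 : |1 - 3 * (wp K t + wq K t) + 2 * (wp K t - wq K t) ^ 2| ≤ 2 := by
    refine abs_le.2 ⟨?_, ?_⟩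
    · nlinarith [sq_nonneg (wp K t - wq K t)]
    · nlinarith
  have h7 : |wp K t - wq K t| * |1 - 3 * (wp K t + wq K t) + 2 * (wp K t - wq K t) ^ 2| ≤ 1 * 2 :=
    mul_le_mul h4 h6 (abs_nonneg _) zero_le_one
  nlinarith [pow_nonneg hK 3]

theorem wW_nonneg (K t : ℝ) : 0 ≤ wW K t := Real.log_nonneg (one_lt_wg K t).le

theorem wW_ge_right (K t : ℝ) : K * (t - 1) ≤ wW K t := by
  unfold wW
  rw [Real.le_log_iff_exp_le (wg_pos K t)]
  unfold wg
  have h2 := Real.exp_pos (-(K * (t + 1)))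
  linarith

theorem wW_ge {K : ℝ} (t : ℝ) : K * (|t| - 1) ≤ wW K t := by
  rcases abs_cases t with ⟨h, _⟩ | ⟨h, _⟩
  · rw [h]; exact wW_ge_right K t
  · rw [h, ← wW_even]; exact wW_ge_right K (-t)

theorem wW1_mul_nonneg {K : ℝ} (hK : 0 ≤ K) (t : ℝ) : 0 ≤ t * wW1 K t := by
  have key : ∀ s : ℝ, 0 ≤ s → 0 ≤ wW1 K s := by
    intro s hs
    unfold wW1 wp wq
    refine mul_nonneg hK ?_
    rw [← sub_div]
    refine div_nonneg ?_ (wg_pos K s).le
    have : Real.exp (-(K * (s + 1))) ≤ Real.exp (K * (s - 1)) := by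
      apply Real.exp_le_exp.2
      nlinarith
    linarith
  rcases le_total 0 t with h | h
  · exact mul_nonneg h (key t h)
  · have h1 := key (-t) (by linarith)
    rw [wW1_odd] at h1
    nlinarith

theorem contDiff_wg (K : ℝ) : ContDiff ℝ ∞ (wg K) := by
  unfold wg
  fun_prop

theorem contDiff_wW (K : ℝ) : ContDiff ℝ ∞ (wW K) := by
  unfold wW
  exact (contDiff_wg K).log fun t => (wg_pos K t).ne'

/-! ## all derivatives are bounded -/

/-- the algebra generated by the weights -/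
inductive WAlg (K : ℝ) : (ℝ → ℝ) → Prop
  | const (c : ℝ) : WAlg K (fun _ => c)
  | p : WAlg K (wp K)
  | q : WAlg K (wq K)
  | add {f g : ℝ → ℝ} : WAlg K f → WAlg K g → WAlg K (fun t => f t + g t)
  | mul {f g : ℝ → ℝ} : WAlg K f → WAlg K g → WAlg K (fun t => f t * g t)

theorem WAlg.bdd {K : ℝ} {f : ℝ → ℝ} (h : WAlg K f) : ∃ C : ℝ, 0 ≤ C ∧ ∀ t, |f t| ≤ C := by
  induction h with
  | const c => exact ⟨|c|, abs_nonneg c, fun _ => le_rfl⟩
  | p =>
    refine ⟨1, zero_le_one, fun t => ?_⟩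
    have h1 := wp_pos K t
    have h2 := wq_pos K t
    have h3 := wpq_lt K t
    exact abs_le.2 ⟨by linarith, by linarith⟩
  | q =>
    refine ⟨1, zero_le_one, fun t => ?_⟩
    have h1 := wp_pos K t
    have h2 := wq_pos K t
    have h3 := wpq_lt K t
    exact abs_le.2 ⟨by linarith, by linarith⟩
  | add _ _ hf hg =>
    obtain ⟨A, hA0, hA⟩ := hf
    obtain ⟨B, hB0, hB⟩ := hg
    exact ⟨A + B, by positivity, fun t => (abs_add_le _ _).trans (add_le_add (hA t) (hB t))⟩
  | mul _ _ hf hg =>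
    obtain ⟨A, hA0, hA⟩ := hf
    obtain ⟨B, hB0, hB⟩ := hg
    refine ⟨A * B, by positivity, fun t => ?_⟩
    rw [abs_mul]
    exact mul_le_mul (hA t) (hB t) (abs_nonneg _) hA0

theorem WAlg.deriv {K : ℝ} {f : ℝ → ℝ} (h : WAlg K f) :
    ∃ g : ℝ → ℝ, WAlg K g ∧ ∀ t, HasDerivAt f (g t) t := by
  induction h with
  | const c => exact ⟨fun _ => 0, .const 0, fun t => hasDerivAt_const t c⟩
  | p =>
    refine ⟨fun t => (fun _ => K) t * wp K t * ((fun _ => (1 : ℝ)) t + (fun _ => (-1 : ℝ)) t * wp K t + wq K t), ?_, ?_⟩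
    · exact .mul (.mul (.const K) .p) (.add (.add (.const 1) (.mul (.const (-1)) .p)) .q)
    · intro t
      refine (hasDerivAt_wp K t).congr_deriv ?_
      ring
  | q =>
    refine ⟨fun t => (fun _ => -K) t * wq K t * ((fun _ => (1 : ℝ)) t + wp K t + (fun _ => (-1 : ℝ)) t * wq K t), ?_, ?_⟩
    · exact .mul (.mul (.const (-K)) .q) (.add (.add (.const 1) .p) (.mul (.const (-1)) .q))
    · intro t
      refine (hasDerivAt_wq K t).congr_deriv ?_
      ring
  | add _ _ hf hg =>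
    obtain ⟨f', hf1, hf2⟩ := hf
    obtain ⟨g', hg1, hg2⟩ := hg
    exact ⟨fun t => f' t + g' t, .add hf1 hg1, fun t => (hf2 t).add (hg2 t)⟩
  | @mul f g hf0 hg0 hf hg =>
    obtain ⟨f', hf1, hf2⟩ := hf
    obtain ⟨g', hg1, hg2⟩ := hg
    exact ⟨fun t => f' t * g t + f t * g' t, .add (.mul hf1 hg0) (.mul hf0 hg1), fun t => (hf2 t).mul (hg2 t)⟩

theorem WAlg.iter {K : ℝ} (m : ℕ) : ∀ {f : ℝ → ℝ}, WAlg K f → ∃ C : ℝ, 0 ≤ C ∧ ∀ t, |iteratedDeriv m f t| ≤ C := by
  induction m with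
  | zero => intro f hf; simpa using hf.bdd
  | succ m ih =>
    intro f hf
    obtain ⟨g, hg1, hg2⟩ := hf.deriv
    have : _root_.deriv f = g := funext fun t => (hg2 t).deriv
    rw [iteratedDeriv_succ', this]
    exact ih hg1

theorem wW1_alg (K : ℝ) : WAlg K (wW1 K) := by
  have h : WAlg K (fun t => (fun _ => K) t * (wp K t + (fun _ => (-1 : ℝ)) t * wq K t)) :=
    .mul (.const K) (.add .p (.mul (.const (-1)) .q))
  convert h using 2
  unfold wW1
  ring

/-- every derivative of the wall of order at least one is bounded -/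
theorem wW_iteratedDeriv_bdd (K : ℝ) (m : ℕ) : ∃ C : ℝ, 0 ≤ C ∧ ∀ t, |iteratedDeriv (m + 1) (wW K) t| ≤ C := by
  have : _root_.deriv (wW K) = wW1 K := funext fun t => (hasDerivAt_wW K t).deriv
  rw [iteratedDeriv_succ', this]
  exact (wW1_alg K).iter m

/-! ## limits -/

theorem wall_continuous (k : ℕ) : Continuous (wall k) := (contDiff_wW _).continuous

theorem wall_contDiff (k : ℕ) : ContDiff ℝ ∞ (wall k) := contDiff_wW _

theorem wall_even (k : ℕ) (t : ℝ) : wall k (-t) = wall k t := wW_even _ t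

theorem wall_ge (k : ℕ) (t : ℝ) : |t| - 1 ≤ wall k t := by
  rcases le_total 1 |t| with h | h
  · have h1 := wW_ge (K := (k : ℝ) + 1) t
    have h2 : (0 : ℝ) ≤ k := Nat.cast_nonneg k
    unfold wall
    nlinarith
  · have h1 := wW_nonneg ((k : ℝ) + 1) t
    unfold wall
    linarith

theorem wall_iter (k m : ℕ) (hm : 1 ≤ m) : ∃ B : ℝ, 0 ≤ B ∧ ∀ t, |iteratedDeriv m (wall k) t| ≤ B := by
  obtain ⟨j, rfl⟩ : ∃ j, m = j + 1 := ⟨m - 1, by omega⟩
  exact wW_iteratedDeriv_bdd ((k : ℝ) + 1) j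

theorem tendsto_wall_zero (t : ℝ) (ht : |t| < 1) : Tendsto (fun k => wall k t) atTop (𝓝 0) := by
  obtain ⟨h1, h2⟩ := abs_lt.1 ht
  have hk : Tendsto (fun k : ℕ => (k : ℝ) + 1) atTop atTop :=
    tendsto_atTop_add_const_right _ _ tendsto_natCast_atTop_atTop
  have e1 : Tendsto (fun k : ℕ => Real.exp (((k : ℝ) + 1) * (t - 1))) atTop (𝓝 0) := by
    refine Real.tendsto_exp_atBot.comp ?_
    exact hk.atTop_mul_const_of_neg (by linarith)
  have e2 : Tendsto (fun k : ℕ => Real.exp (-(((k : ℝ) + 1) * (t + 1)))) atTop (𝓝 0) := by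
    refine Real.tendsto_exp_neg_atTop_nhds_zero.comp ?_
    exact hk.atTop_mul_const (by linarith)
  have e3 : Tendsto (fun k : ℕ => wg ((k : ℝ) + 1) t) atTop (𝓝 1) := by
    have := (e1.const_add 1).add e2
    simpa [wg] using this
  have e4 := e3.log one_ne_zero
  simpa [wall, wW] using e4

theorem tendsto_wall_atTop (t : ℝ) (ht : 1 < |t|) : Tendsto (fun k => wall k t) atTop atTop := by
  have hk : Tendsto (fun k : ℕ => (k : ℝ) + 1) atTop atTop :=
    tendsto_atTop_add_const_right _ _ tendsto_natCast_atTop_atTop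
  have h1 : Tendsto (fun k : ℕ => ((k : ℝ) + 1) * (|t| - 1)) atTop atTop :=
    hk.atTop_mul_const (by linarith)
  exact tendsto_atTop_mono (fun k => wW_ge (K := (k : ℝ) + 1) t) h1

end Vale.Agent.P227.M
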