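import Vale.Agent.P227.M.END.Bridge
import Vale.Agent.P227.M.END.Wall

/-! # P227/M/END: `StmtLocal` gives the logarithmic Brunn-Minkowski inequality in all dimensions -/

open MeasureTheory Set Filter Topology

namespace Vale.Agent.P227.M.END

open Vale.Agent.P227.M

theorem wall_Wall (k : ℕ) : Vale.Agent.P227.End.Wall (wall k) (wW1 ((k : ℝ) + 1)) (wW2 ((k : ℝ) + 1)) where
  d1 t := hasDerivAt_wW _ t
  d2 t := hasDerivAt_wW1 _ t
  cont2 := continuous_iff_continuousAt.2 fun t => (hasDerivAt_wW2 _ t).continuousAt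
  lower t := wall_ge k t
  growth := by
    have hk : (0 : ℝ) ≤ (k : ℝ) + 1 := by positivity
    refine ⟨((k : ℝ) + 1) + ((k : ℝ) + 1) ^ 2, by positivity, fun t => ⟨?_, ?_⟩⟩
    · have h1 := wW1_bound hk t
      have h2 := abs_nonneg t
      nlinarith [sq_nonneg ((k : ℝ) + 1), mul_nonneg hk h2, mul_nonneg (sq_nonneg ((k : ℝ) + 1)) h2]
    · rw [abs_of_nonneg (wW2_nonneg _ t)]
      have := wW2_le ((k : ℝ) + 1) t
      linarith

theorem wall_RW (k : ℕ) : RW (wall k) (wW1 ((k : ℝ) + 1)) (wW2 ((k : ℝ) + 1)) where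
  smooth := wall_contDiff k
  even := wall_even k
  d1 t := hasDerivAt_wW _ t
  d2 t := hasDerivAt_wW1 _ t
  nonneg t := wW2_nonneg _ t
  bdd m hm := by
    obtain ⟨B, _, hB⟩ := wall_iter k m (by omega)
    exact ⟨B, hB⟩

/-- **the end reduction**: the local functional inequality `StmtLocal` gives the logarithmic
Brunn-Minkowski inequality for all symmetric convex bodies in all dimensions -/
theorem q1_of_stmtLocal (H : StmtLocal) {n : ℕ} (hn : 0 < n) {K L : Set (EV n)} (hK : SymConvexBody K)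
    (hL : SymConvexBody L) {t : ℝ} (ht0 : 0 ≤ t) (ht1 : t ≤ 1) :
    (volume K).toReal ^ (1 - t) * (volume L).toReal ^ t ≤ (volume (logComb t K L)).toReal :=
  log_bm_of_stmtLocal H wall (fun k => wW1 ((k : ℝ) + 1)) (fun k => wW2 ((k : ℝ) + 1)) wall_Wall wall_RW
    tendsto_wall_zero tendsto_wall_atTop hn hK hL ht0 ht1

end Vale.Agent.P227.M.END
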