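import Vale.Agent.P227.M.END.Top
import Vale.Agent.P227.M.Top.Chain

/-! # P227/M/END: block END in the form of the chain -/

namespace Vale.Agent.P227.M.END

open Vale.Agent.P227.M

theorem stmtQ1_of_stmtLocal : StmtLocal → StmtQ1 := by
  intro H
  unfold StmtQ1
  intros
  apply q1_of_stmtLocal H <;> assumption

end Vale.Agent.P227.M.END
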