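import Vale.Agent.P227.M.END.Ridge
import Vale.Agent.P227.End.Wall

/-! # P227/M/END: `StmtLocal` gives the logarithmic Brunn-Minkowski inequality -/

open MeasureTheory Set Filter Topology

namespace Vale.Agent.P227.M.END

open Vale.Agent.P227.M
open Vale.Agent.P227.End (Wall LocalIneq gib obs1 obs2)

theorem contDiff_pd {n : ℕ} {f : E n → ℝ} (hf : ContDiff ℝ (⊤ : ℕ∞) f) (i : Fin n) : ContDiff ℝ (⊤ : ℕ∞) (pd i f) := by
  unfold pd
  have h1 : ContDiff ℝ (⊤ : ℕ∞) (fderiv ℝ f) := hf.fderiv_right (by exact_mod_cast le_top)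
  exact h1.clm_apply contDiff_const

theorem pd_sum {n N : ℕ} {f : Fin N → E n → ℝ} (hf : ∀ j, ContDiff ℝ (⊤ : ℕ∞) (f j)) (i : Fin n) :
    pd i (fun x => ∑ j, f j x) = fun x => ∑ j, pd i (f j) x := by
  funext x
  have h1 : HasFDerivAt (fun x => ∑ j, f j x) (∑ j, fderiv ℝ (f j) x) x :=
    HasFDerivAt.fun_sum fun j _ => ((hf j).differentiable (by simp) x).hasFDerivAt
  rw [pd, h1.fderiv, sum_apply]
  rfl

theorem hess_sum {n N : ℕ} {f : Fin N → E n → ℝ} (hf : ∀ j, ContDiff ℝ (⊤ : ℕ∞) (f j)) (x : E n) (i k : Fin n) :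
    hess (fun x => ∑ j, f j x) x i k = ∑ j, hess (f j) x i k := by
  rw [hess, pd_sum hf, pd_sum fun j => contDiff_pd (hf j) k]
  rfl

theorem qf_sum {n N : ℕ} {f : Fin N → E n → ℝ} (hf : ∀ j, ContDiff ℝ (⊤ : ℕ∞) (f j)) (x z : E n) :
    qf (hess (fun x => ∑ j, f j x) x) z = ∑ j, qf (hess (f j) x) z := by
  simp only [qf, hess_sum hf, Finset.sum_mul]
  refine Eq.symm ?_
  rw [Finset.sum_comm]
  refine Finset.sum_congr rfl fun i _ => ?_
  rw [Finset.sum_comm]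

/-- finite sums of pieces with a uniform lower bound are nice -/
theorem nice_sum {n N : ℕ} {f : Fin N → E n → ℝ} (hf : ∀ j, Piece (f j)) {c C : ℝ} (hc : 0 < c)
    (hl : ∀ x v, c * ‖v‖ ^ 2 ≤ ∑ j, qf (hess (f j) x) v) (hu : ∀ x v, ∑ j, qf (hess (f j) x) v ≤ C * ‖v‖ ^ 2) :
    Nice (fun x => ∑ j, f j x) c C where
  c_pos := hc
  smooth := ContDiff.sum fun j _ => (hf j).smooth
  lower x v := by
    rw [qf_sum fun j => (hf j).smooth]
    exact hl x v
  upper x v := by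
    rw [qf_sum fun j => (hf j).smooth]
    exact hu x v
  bdd k hk := by
    choose B hB using fun j => (hf j).bdd k hk
    refine ⟨∑ j, B j, fun x => ?_⟩
    have e : (fun x => ∑ j, f j x) = ∑ j, f j := by
      funext x
      simp
    rw [e, iteratedFDeriv_sum_apply fun j _ => ((hf j).smooth.of_le (by exact_mod_cast le_top)).contDiffAt]
    exact (norm_sum_le _ _).trans (Finset.sum_le_sum fun j _ => hB j x)
  even x := by
    refine Finset.sum_congr rfl fun j _ => (hf j).even x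

/-- the pieces: the walls and the Gaussian directions -/
noncomputable def pcs {n J : ℕ} (v : ℝ → ℝ) (e : ℝ) (ν : Fin J → E n) : Fin (J + n) → E n → ℝ :=
  Fin.append (fun j x => v (inner ℝ x (ν j))) (fun i x => e * (inner ℝ x (ei i) : ℝ) ^ 2)

theorem pcs_left {n J : ℕ} (v : ℝ → ℝ) (e : ℝ) (ν : Fin J → E n) (j : Fin J) :
    pcs v e ν (Fin.castAdd n j) = fun x => v (inner ℝ x (ν j)) := Fin.append_left _ _ _

theorem pcs_right {n J : ℕ} (v : ℝ → ℝ) (e : ℝ) (ν : Fin J → E n) (i : Fin n) :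
    pcs v e ν (Fin.natAdd J i) = fun x => e * (inner ℝ x (ei i) : ℝ) ^ 2 := Fin.append_right _ _ _

theorem inner_ei' {n : ℕ} (i : Fin n) (x : E n) : (inner ℝ x (ei i) : ℝ) = x i := by
  rw [real_inner_comm, inner_ei]

theorem sum_pcs {n J : ℕ} (v : ℝ → ℝ) (e : ℝ) (ν : Fin J → E n) (x : E n) :
    ∑ j, pcs v e ν j x = (∑ j, v (inner ℝ x (ν j))) + e * ‖x‖ ^ 2 := by
  rw [Fin.sum_univ_add]
  congr 1
  · refine Finset.sum_congr rfl fun j _ => ?_
    rw [pcs_left]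
  · rw [EuclideanSpace.real_norm_sq_eq, Finset.mul_sum]
    refine Finset.sum_congr rfl fun i _ => ?_
    rw [pcs_right]
    simp only [inner_ei']

theorem exp_pcs {n J : ℕ} (v : ℝ → ℝ) (e : ℝ) (ν : Fin J → E n) (x : E n) :
    Real.exp (-∑ j, pcs v e ν j x) = gib v e ν x := by
  rw [sum_pcs, gib]
  congr 1
  ring

theorem localIneq_of_stmtLocal (H : StmtLocal) {v v1 v2 : ℝ → ℝ} (hw : Wall v v1 v2) (hr : RW v v1 v2) {e : ℝ}
    (he : 0 < e) : LocalIneq v v1 v2 e := by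
  intro n J ν hn hν ρ
  have hsq := RW_sq he.le
  have hpc : ∀ j, Piece (pcs v e ν j) := by
    intro j
    refine Fin.addCases (fun i => ?_) (fun i => ?_) j
    · rw [pcs_left]
      exact hr.piece (ν i)
    · rw [pcs_right]
      exact hsq.piece (ei i)
  obtain ⟨C, hC0, hC⟩ := hw.growth
  have hqsum : ∀ x z : E n, ∑ j, qf (hess (pcs v e ν j) x) z =
      (∑ j, v2 (inner ℝ x (ν j)) * (inner ℝ z (ν j) : ℝ) ^ 2) + 2 * e * ‖z‖ ^ 2 := by
    intro x z
    rw [Fin.sum_univ_add]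
    congr 1
    · refine Finset.sum_congr rfl fun j _ => ?_
      rw [pcs_left, qf_ridge hw.d1 hw.d2]
    · rw [EuclideanSpace.real_norm_sq_eq, Finset.mul_sum]
      refine Finset.sum_congr rfl fun i _ => ?_
      rw [pcs_right, qf_ridge hsq.d1 hsq.d2, inner_ei']
  have hnice : Nice (fun x => ∑ j, pcs v e ν j x) (2 * e) ((∑ j, C * ‖ν j‖ ^ 2) + 2 * e) := by
    refine nice_sum hpc (by positivity) (fun x z => ?_) (fun x z => ?_)
    · rw [hqsum]
      have : 0 ≤ ∑ j, v2 (inner ℝ x (ν j)) * (inner ℝ z (ν j) : ℝ) ^ 2 :=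
        Finset.sum_nonneg fun j _ => mul_nonneg (hr.nonneg _) (sq_nonneg _)
      linarith
    · rw [hqsum, add_mul, Finset.sum_mul]
      refine add_le_add (Finset.sum_le_sum fun j _ => ?_) le_rfl
      have h1 : (inner ℝ z (ν j) : ℝ) ^ 2 ≤ ‖ν j‖ ^ 2 * ‖z‖ ^ 2 := by
        have h2 := abs_real_inner_le_norm z (ν j)
        rw [← sq_abs]
        calc |(inner ℝ z (ν j) : ℝ)| ^ 2 ≤ (‖z‖ * ‖ν j‖) ^ 2 := pow_le_pow_left₀ (abs_nonneg _) h2 2
          _ = _ := by ring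
      have h3 : v2 (inner ℝ x (ν j)) ≤ C := (le_abs_self _).trans (hC _).2
      calc v2 (inner ℝ x (ν j)) * (inner ℝ z (ν j) : ℝ) ^ 2 ≤ C * (‖ν j‖ ^ 2 * ‖z‖ ^ 2) :=
            mul_le_mul h3 h1 (sq_nonneg _) hC0
        _ = _ := by ring
  have key := H n (J + n) (pcs v e ν) (Fin.append ρ (fun _ => 0)) _ _ hpc hnice
  -- observables
  have hf : ∀ x : E n, ∑ j, (Fin.append ρ (fun _ : Fin n => (0 : ℝ))) j * ∑ i, x i * pd i (pcs v e ν j) x = obs1 v1 ν ρ x := by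
    intro x
    rw [Fin.sum_univ_add, obs1]
    have h0 : ∑ i : Fin n, (Fin.append ρ (fun _ : Fin n => (0 : ℝ))) (Fin.natAdd J i) *
        ∑ k, x k * pd k (pcs v e ν (Fin.natAdd J i)) x = 0 := by
      refine Finset.sum_eq_zero fun i _ => ?_
      rw [Fin.append_right, zero_mul]
    rw [h0, add_zero]
    refine Finset.sum_congr rfl fun j _ => ?_
    rw [Fin.append_left, pcs_left, sum_pd_ridge hw.d1]
  have hb : ∑ j, (Fin.append ρ (fun _ : Fin n => (0 : ℝ))) j ^ 2 * Ex (fun x => ∑ j, pcs v e ν j x)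
      (fun x => (∑ i, x i * pd i (pcs v e ν j) x) + qf (hess (pcs v e ν j) x) x) =
      ∑ j, ρ j ^ 2 * Ex (fun x => ∑ j, pcs v e ν j x)
        (fun x => (inner ℝ x (ν j) : ℝ) * v1 (inner ℝ x (ν j)) + (inner ℝ x (ν j) : ℝ) ^ 2 * v2 (inner ℝ x (ν j))) := by
    rw [Fin.sum_univ_add]
    have h0 : ∑ i : Fin n, (Fin.append ρ (fun _ : Fin n => (0 : ℝ))) (Fin.natAdd J i) ^ 2 * Ex (fun x => ∑ j, pcs v e ν j x)
        (fun x => (∑ k, x k * pd k (pcs v e ν (Fin.natAdd J i)) x) + qf (hess (pcs v e ν (Fin.natAdd J i)) x) x) = 0 := by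
      refine Finset.sum_eq_zero fun i _ => ?_
      rw [Fin.append_right]
      ring
    rw [h0, add_zero]
    refine Finset.sum_congr rfl fun j _ => ?_
    rw [Fin.append_left, pcs_left]
    congr 2
    funext x
    rw [sum_pd_ridge hw.d1, qf_ridge hw.d1 hw.d2]
    ring
  rw [hb] at key
  simp only [hf, Ex, exp_pcs] at key
  obtain ⟨m, rfl⟩ : ∃ m, n = m + 1 := ⟨n - 1, by omega⟩
  have hmv : ∀ ρ' : Fin J → ℝ, Vale.Agent.P227.End.mv ν (fun _ => 0) ρ' 0 = ν := by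
    intro ρ'
    funext j
    simp [Vale.Agent.P227.End.mv]
  have hZ : 0 < ∫ x, gib v e ν x := by
    have h1 := (Vale.Agent.P227.End.hasDerivAt_part ν (fun _ => 0) (fun _ => 0) hw e hν he.le 0).1
    rw [hmv] at h1
    exact integral_exp_pos h1
  have hint : ∀ j, Integrable (fun x => ((inner ℝ x (ν j) : ℝ) * v1 (inner ℝ x (ν j)) +
      (inner ℝ x (ν j) : ℝ) ^ 2 * v2 (inner ℝ x (ν j))) * gib v e ν x) := by
    intro j
    have h1 := (Vale.Agent.P227.End.hasDerivAt_part ν (fun _ => 0) (Pi.single j 1) hw e hν he.le 0).2.2.1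
    rw [hmv] at h1
    refine h1.congr (Eventually.of_forall fun x => ?_)
    simp only [obs2]
    congr 1
    rw [Finset.sum_eq_single j]
    · simp
    · intro i _ hij
      simp [Pi.single_eq_of_ne hij]
    · simp
  have hsum : ∫ x, obs2 v1 v2 ν ρ x * gib v e ν x = ∑ j, ρ j ^ 2 * ∫ x, ((inner ℝ x (ν j) : ℝ) * v1 (inner ℝ x (ν j)) +
      (inner ℝ x (ν j) : ℝ) ^ 2 * v2 (inner ℝ x (ν j))) * gib v e ν x := by
    simp only [← integral_const_mul]
    rw [← integral_finsetSum _ fun j _ => (hint j).const_mul _]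
    refine integral_congr_ae (Eventually.of_forall fun x => ?_)
    simp only [obs2, Finset.sum_mul, mul_assoc]
  rw [hsum]
  set Z : ℝ := ∫ x, gib v e ν x with hZdef
  have e1 : ∑ j, ρ j ^ 2 * ((∫ x, ((inner ℝ x (ν j) : ℝ) * v1 (inner ℝ x (ν j)) +
      (inner ℝ x (ν j) : ℝ) ^ 2 * v2 (inner ℝ x (ν j))) * gib v e ν x) / Z) =
      (∑ j, ρ j ^ 2 * ∫ x, ((inner ℝ x (ν j) : ℝ) * v1 (inner ℝ x (ν j)) +
      (inner ℝ x (ν j) : ℝ) ^ 2 * v2 (inner ℝ x (ν j))) * gib v e ν x) / Z := by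
    rw [Finset.sum_div]
    refine Finset.sum_congr rfl fun j _ => ?_
    ring
  rw [e1, div_pow, div_sub_div _ _ hZ.ne' (by positivity), div_le_div_iff₀ (by positivity) hZ] at key
  have hZ2 : 0 < Z ^ 2 := by positivity
  have h9 : Z ^ 2 * (((∫ x, obs1 v1 ν ρ x ^ 2 * gib v e ν x) * Z) - (∫ x, obs1 v1 ν ρ x * gib v e ν x) ^ 2) ≤
      Z ^ 2 * ((∑ j, ρ j ^ 2 * ∫ x, ((inner ℝ x (ν j) : ℝ) * v1 (inner ℝ x (ν j)) +
      (inner ℝ x (ν j) : ℝ) ^ 2 * v2 (inner ℝ x (ν j))) * gib v e ν x) * Z) := by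
    nlinarith [key]
  have h10 := le_of_mul_le_mul_left h9 hZ2
  linarith

/-- the end reduction: the local functional inequality gives the logarithmic Brunn-Minkowski inequality, once
a sequence of walls is given -/
theorem log_bm_of_stmtLocal (H : StmtLocal) (v v1 v2 : ℕ → ℝ → ℝ) (hW : ∀ k, Wall (v k) (v1 k) (v2 k))
    (hR : ∀ k, RW (v k) (v1 k) (v2 k))
    (hv0 : ∀ t, |t| < 1 → Tendsto (fun k => v k t) atTop (𝓝 0))
    (hv1 : ∀ t, 1 < |t| → Tendsto (fun k => v k t) atTop atTop)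
    {n : ℕ} (hn : 0 < n) {K L : Set (EV n)} (hK : SymConvexBody K)
    (hL : SymConvexBody L) {t : ℝ} (ht0 : 0 ≤ t) (ht1 : t ≤ 1) :
    (volume K).toReal ^ (1 - t) * (volume L).toReal ^ t ≤ (volume (logComb t K L)).toReal :=
  Vale.Agent.P227.End.log_bm_of_walls v v1 v2 (fun k => 1 / ((k : ℝ) + 1)) hW hv0 hv1 (fun k => by positivity)
    tendsto_one_div_add_atTop_nhds_zero_nat
    (fun k => localIneq_of_stmtLocal H (hW k) (hR k) (by positivity)) hn hK hL ht0 ht1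

end Vale.Agent.P227.M.END
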