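import Vale.Agent.P227.End.Soft

/-! # P227: from the local inequality for soft walls to the log-concavity of `softInt` -/

open MeasureTheory Set Metric Filter Topology
open scoped ENNReal NNReal

namespace Vale.Agent.P227.End

/-- the wall variables -/
noncomputable def wa {n J : ℕ} (ν : Fin J → EV n) (h : Fin J → ℝ) (j : Fin J) (x : EV n) : ℝ :=
  (inner ℝ x (ν j) : ℝ) / h j

/-- the weight -/
noncomputable def wW {n J : ℕ} (v : ℝ → ℝ) (e : ℝ) (ν : Fin J → EV n) (h : Fin J → ℝ) (x : EV n) : ℝ :=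
  Real.exp (-(∑ j, v (wa ν h j x)) - e * ‖x‖ ^ 2)

/-- the first logarithmic derivative -/
noncomputable def wf {n J : ℕ} (v1 : ℝ → ℝ) (ν : Fin J → EV n) (h ρ : Fin J → ℝ) (x : EV n) : ℝ :=
  ∑ j, ρ j * (wa ν h j x * v1 (wa ν h j x))

/-- minus the second derivative of the exponent -/
noncomputable def wq {n J : ℕ} (v1 v2 : ℝ → ℝ) (ν : Fin J → EV n) (h ρ : Fin J → ℝ) (x : EV n) : ℝ :=
  ∑ j, ρ j ^ 2 * (wa ν h j x * v1 (wa ν h j x) + wa ν h j x ^ 2 * v2 (wa ν h j x))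

/-- the local inequality for soft walls -/
def LocSoft (v v1 v2 : ℝ → ℝ) (e : ℝ) : Prop :=
  ∀ (n J : ℕ) (ν : Fin J → EV n), 0 < n → (∀ x : EV n, (∀ j, (inner ℝ x (ν j) : ℝ) = 0) → x = 0) →
  ∀ h ρ : Fin J → ℝ, (∀ j, 0 < h j) →
    (∫ x, wf v1 ν h ρ x ^ 2 * wW v e ν h x) * (∫ x, wW v e ν h x) -
        (∫ x, wf v1 ν h ρ x * wW v e ν h x) ^ 2 ≤
      (∫ x, wW v e ν h x) * ∫ x, wq v1 v2 ν h ρ x * wW v e ν h x

theorem softInt_eq {n J : ℕ} (v : ℝ → ℝ) (e : ℝ) (ν : Fin J → EV n) (h : Fin J → ℝ) :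
    softInt v e ν h = ∫ x, wW v e ν h x := rfl

/-- moments of Gaussians -/
theorem integrable_pow_gauss {n : ℕ} {e : ℝ} (he : 0 < e) (k : ℕ) :
    Integrable (fun x : EV n => ‖x‖ ^ k * Real.exp (-(e * ‖x‖ ^ 2))) := by
  have h1 := (integrable_exp_neg_norm (n := n) (a := 1) one_pos).const_mul ((k.factorial : ℝ) * Real.exp (1 / e))
  refine h1.mono' (by fun_prop) (Eventually.of_forall fun x => ?_)
  have hn := norm_nonneg x
  rw [Real.norm_eq_abs, abs_of_nonneg (by positivity)]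
  have h2 := Real.pow_div_factorial_le_exp ‖x‖ hn k
  have hk : (0 : ℝ) < k.factorial := by exact_mod_cast Nat.factorial_pos _
  rw [div_le_iff₀ hk] at h2
  calc ‖x‖ ^ k * Real.exp (-(e * ‖x‖ ^ 2))
      ≤ (Real.exp ‖x‖ * k.factorial) * Real.exp (-(e * ‖x‖ ^ 2)) :=
        mul_le_mul_of_nonneg_right h2 (Real.exp_pos _).le
    _ = (k.factorial : ℝ) * Real.exp (‖x‖ - e * ‖x‖ ^ 2) := by
        rw [sub_eq_add_neg, Real.exp_add]; ring
    _ ≤ (k.factorial : ℝ) * Real.exp (1 / e - 1 * ‖x‖) := by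
        refine mul_le_mul_of_nonneg_left (Real.exp_le_exp.2 ?_) hk.le
        have h3 : 0 ≤ e * (‖x‖ - 1 / e) ^ 2 := by positivity
        have h4 : e * (‖x‖ - 1 / e) ^ 2 = e * ‖x‖ ^ 2 - 2 * ‖x‖ + 1 / e := by
          field_simp
          ring
        linarith
    _ = (k.factorial : ℝ) * Real.exp (1 / e) * Real.exp (-(1 * ‖x‖)) := by
        rw [sub_eq_add_neg, Real.exp_add]; ring

section
variable {n J : ℕ} {v v1 v2 : ℝ → ℝ} {e B m : ℝ} (ν : Fin J → EV n) (g ρ : Fin J → ℝ)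

/-- moving walls -/
noncomputable def wH (g ρ : Fin J → ℝ) (t : ℝ) : Fin J → ℝ := fun j => g j * Real.exp (ρ j * t)

theorem wa_deriv (hg : ∀ j, 0 < g j) (j : Fin J) (x : EV n) (t : ℝ) :
    HasDerivAt (fun t => wa ν (wH g ρ t) j x) (-(ρ j * wa ν (wH g ρ t) j x)) t := by
  have hgj := (hg j).ne'
  have h1 : HasDerivAt (fun t => g j * Real.exp (ρ j * t)) (g j * (Real.exp (ρ j * t) * ρ j)) t := by
    have h2 : HasDerivAt (fun t => ρ j * t) (ρ j) t := by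
      simpa using (hasDerivAt_id t).const_mul (ρ j)
    exact h2.exp.const_mul (g j)
  have h3 : g j * Real.exp (ρ j * t) ≠ 0 := mul_ne_zero hgj (Real.exp_pos _).ne'
  have h4 := (h1.inv h3).const_mul (inner ℝ x (ν j) : ℝ)
  have h5 : (fun t => wa ν (wH g ρ t) j x) =
      fun t => (inner ℝ x (ν j) : ℝ) * (fun t => g j * Real.exp (ρ j * t))⁻¹ t := by
    funext s
    simp only [wa, wH, Pi.inv_apply, div_eq_mul_inv]
  rw [h5]
  refine h4.congr_deriv ?_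
  simp only [wa, wH]
  field_simp

theorem v1_bound (hv1 : ∀ t, HasDerivAt v1 (v2 t) t) (hB : ∀ t, |v2 t| ≤ B) (h0 : v1 0 = 0) (s : ℝ) :
    |v1 s| ≤ B * |s| := by
  have h := Convex.norm_image_sub_le_of_norm_hasDerivWithin_le (f := v1) (f' := v2) (s := univ) (C := B)
    (fun t _ => (hv1 t).hasDerivWithinAt) (fun t _ => by simpa using hB t) convex_univ
    (mem_univ 0) (mem_univ s)
  simpa [h0] using h

theorem wa_bound (hg : ∀ j, 0 < g j) (j : Fin J) (x : EV n) {t R : ℝ} (ht : |t| ≤ R) :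
    |wa ν (wH g ρ t) j x| ≤ (‖ν j‖ / g j * Real.exp (|ρ j| * R)) * ‖x‖ := by
  have hgj := hg j
  have h1 : |wa ν (wH g ρ t) j x| = |(inner ℝ x (ν j) : ℝ)| / g j * Real.exp (-(ρ j * t)) := by
    simp only [wa, wH]
    rw [abs_div, abs_mul, abs_of_pos hgj, abs_of_pos (Real.exp_pos _), Real.exp_neg]
    field_simp
  rw [h1]
  have h2 : |(inner ℝ x (ν j) : ℝ)| ≤ ‖x‖ * ‖ν j‖ := abs_real_inner_le_norm _ _
  have h3 : Real.exp (-(ρ j * t)) ≤ Real.exp (|ρ j| * R) := by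
    refine Real.exp_le_exp.2 ?_
    calc -(ρ j * t) ≤ |ρ j * t| := neg_le_abs _
      _ = |ρ j| * |t| := abs_mul _ _
      _ ≤ |ρ j| * R := mul_le_mul_of_nonneg_left ht (abs_nonneg _)
  calc |(inner ℝ x (ν j) : ℝ)| / g j * Real.exp (-(ρ j * t))
      ≤ (‖x‖ * ‖ν j‖) / g j * Real.exp (|ρ j| * R) := by
        refine mul_le_mul ?_ h3 (Real.exp_pos _).le (by positivity)
        exact div_le_div_of_nonneg_right h2 hgj.le
    _ = _ := by ring

/-- the constant -/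
noncomputable def cK (j : Fin J) (R : ℝ) : ℝ := ‖ν j‖ / g j * Real.exp (|ρ j| * R)

theorem wf_bound (hg : ∀ j, 0 < g j) (hb : ∀ s, |v1 s| ≤ B * |s|) (hB0 : 0 ≤ B) (x : EV n) {t R : ℝ} (ht : |t| ≤ R) :
    |wf v1 ν (wH g ρ t) ρ x| ≤ (∑ j, |ρ j| * (B * cK ν g ρ j R ^ 2)) * ‖x‖ ^ 2 := by
  rw [Finset.sum_mul]
  refine (Finset.abs_sum_le_sum_abs _ _).trans (Finset.sum_le_sum fun j _ => ?_)
  have h1 := wa_bound ν g ρ hg j x ht
  have h2 := hb (wa ν (wH g ρ t) j x)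
  rw [abs_mul, abs_mul]
  set a := wa ν (wH g ρ t) j x
  have h3 : |a| * |v1 a| ≤ |a| * (B * |a|) := mul_le_mul_of_nonneg_left h2 (abs_nonneg _)
  have h4 : |a| ^ 2 ≤ (cK ν g ρ j R * ‖x‖) ^ 2 := pow_le_pow_left₀ (abs_nonneg _) h1 2
  calc |ρ j| * (|a| * |v1 a|) ≤ |ρ j| * (B * |a| ^ 2) := by
        refine mul_le_mul_of_nonneg_left ?_ (abs_nonneg _)
        calc |a| * |v1 a| ≤ |a| * (B * |a|) := h3
          _ = B * |a| ^ 2 := by ring
    _ ≤ |ρ j| * (B * (cK ν g ρ j R * ‖x‖) ^ 2) :=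
        mul_le_mul_of_nonneg_left (mul_le_mul_of_nonneg_left h4 hB0) (abs_nonneg _)
    _ = _ := by ring

theorem wq_bound (hg : ∀ j, 0 < g j) (hb : ∀ s, |v1 s| ≤ B * |s|) (hB : ∀ t, |v2 t| ≤ B) (hB0 : 0 ≤ B) (x : EV n)
    {t R : ℝ} (ht : |t| ≤ R) :
    |wq v1 v2 ν (wH g ρ t) ρ x| ≤ (∑ j, ρ j ^ 2 * (2 * B * cK ν g ρ j R ^ 2)) * ‖x‖ ^ 2 := by
  rw [Finset.sum_mul]
  refine (Finset.abs_sum_le_sum_abs _ _).trans (Finset.sum_le_sum fun j _ => ?_)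
  have h1 := wa_bound ν g ρ hg j x ht
  have h2 := hb (wa ν (wH g ρ t) j x)
  have h2' := hB (wa ν (wH g ρ t) j x)
  set a := wa ν (wH g ρ t) j x
  have h4 : |a| ^ 2 ≤ (cK ν g ρ j R * ‖x‖) ^ 2 := pow_le_pow_left₀ (abs_nonneg _) h1 2
  have h5 : |a * v1 a + a ^ 2 * v2 a| ≤ 2 * B * |a| ^ 2 := by
    calc |a * v1 a + a ^ 2 * v2 a| ≤ |a * v1 a| + |a ^ 2 * v2 a| := abs_add_le _ _
      _ = |a| * |v1 a| + |a| ^ 2 * |v2 a| := by rw [abs_mul, abs_mul, abs_pow]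
      _ ≤ |a| * (B * |a|) + |a| ^ 2 * B :=
          add_le_add (mul_le_mul_of_nonneg_left h2 (abs_nonneg _))
            (mul_le_mul_of_nonneg_left h2' (by positivity))
      _ = 2 * B * |a| ^ 2 := by ring
  rw [abs_mul, abs_of_nonneg (sq_nonneg (ρ j))]
  calc ρ j ^ 2 * |a * v1 a + a ^ 2 * v2 a| ≤ ρ j ^ 2 * (2 * B * (cK ν g ρ j R * ‖x‖) ^ 2) := by
        refine mul_le_mul_of_nonneg_left (h5.trans ?_) (sq_nonneg _)
        exact mul_le_mul_of_nonneg_left h4 (by positivity)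
    _ = _ := by ring

theorem wW_bound (hm : ∀ t, m ≤ v t) (h : Fin J → ℝ) (x : EV n) :
    wW v e ν h x ≤ Real.exp (-(J * m)) * Real.exp (-(e * ‖x‖ ^ 2)) := by
  rw [wW, ← Real.exp_add]
  refine Real.exp_le_exp.2 ?_
  have h1 : ∑ _j : Fin J, m ≤ ∑ j, v (wa ν h j x) := Finset.sum_le_sum fun j _ => hm _
  rw [Finset.sum_const, Finset.card_univ, Fintype.card_fin, nsmul_eq_mul] at h1
  linarith

theorem wW_pos (h : Fin J → ℝ) (x : EV n) : 0 < wW v e ν h x := Real.exp_pos _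

theorem wW_deriv (hv : ∀ t, HasDerivAt v (v1 t) t) (hg : ∀ j, 0 < g j) (x : EV n) (t : ℝ) :
    HasDerivAt (fun t => wW v e ν (wH g ρ t) x) (wf v1 ν (wH g ρ t) ρ x * wW v e ν (wH g ρ t) x) t := by
  have h1 : HasDerivAt (fun t => ∑ j, v (wa ν (wH g ρ t) j x))
      (∑ j, v1 (wa ν (wH g ρ t) j x) * (-(ρ j * wa ν (wH g ρ t) j x))) t := by
    refine HasDerivAt.fun_sum fun j _ => ?_
    exact (hv _).comp t (wa_deriv ν g ρ hg j x t)
  have h2 := ((h1.neg).sub_const (e * ‖x‖ ^ 2)).exp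
  refine h2.congr_deriv ?_
  rw [mul_comm]
  congr 1
  rw [wf, ← Finset.sum_neg_distrib]
  refine Finset.sum_congr rfl fun j _ => ?_
  ring

theorem wf_deriv (hv1 : ∀ t, HasDerivAt v1 (v2 t) t) (hg : ∀ j, 0 < g j) (x : EV n) (t : ℝ) :
    HasDerivAt (fun t => wf v1 ν (wH g ρ t) ρ x) (-(wq v1 v2 ν (wH g ρ t) ρ x)) t := by
  have h1 : HasDerivAt (fun t => wf v1 ν (wH g ρ t) ρ x)
      (∑ j, ρ j * (-(ρ j * wa ν (wH g ρ t) j x) * v1 (wa ν (wH g ρ t) j x) +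
        wa ν (wH g ρ t) j x * (v2 (wa ν (wH g ρ t) j x) * (-(ρ j * wa ν (wH g ρ t) j x))))) t := by
    refine HasDerivAt.fun_sum fun j _ => ?_
    have h2 := wa_deriv ν g ρ hg j x t
    exact (h2.mul ((hv1 _).comp t h2)).const_mul (ρ j)
  refine h1.congr_deriv ?_
  rw [wq, ← Finset.sum_neg_distrib]
  refine Finset.sum_congr rfl fun j _ => ?_
  ring

theorem wfW_deriv (hv : ∀ t, HasDerivAt v (v1 t) t) (hv1 : ∀ t, HasDerivAt v1 (v2 t) t) (hg : ∀ j, 0 < g j)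
    (x : EV n) (t : ℝ) :
    HasDerivAt (fun t => wf v1 ν (wH g ρ t) ρ x * wW v e ν (wH g ρ t) x)
      ((wf v1 ν (wH g ρ t) ρ x ^ 2 - wq v1 v2 ν (wH g ρ t) ρ x) * wW v e ν (wH g ρ t) x) t := by
  refine ((wf_deriv ν g ρ hv1 hg x t).mul (wW_deriv ν g ρ hv hg x t)).congr_deriv ?_
  ring

theorem wW_meas (hv : Measurable v) (h : Fin J → ℝ) : Measurable (wW v e ν h) := by
  unfold wW wa
  fun_prop

theorem wf_meas (hv1 : Measurable v1) (h ρ : Fin J → ℝ) : Measurable (wf v1 ν h ρ) := by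
  unfold wf wa
  fun_prop

theorem wq_meas (hv1 : Measurable v1) (hv2 : Measurable v2) (h ρ : Fin J → ℝ) : Measurable (wq v1 v2 ν h ρ) := by
  unfold wq wa
  fun_prop

theorem wW_int (hm : ∀ t, m ≤ v t) (he : 0 < e) (hv : Measurable v) (h : Fin J → ℝ) :
    Integrable (wW (n := n) v e ν h) := by
  have h1 := (integrable_pow_gauss (n := n) he 0).const_mul (Real.exp (-(J * m)))
  refine h1.mono' (wW_meas ν hv h).aestronglyMeasurable (Eventually.of_forall fun x => ?_)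
  rw [Real.norm_eq_abs, abs_of_pos (wW_pos ν h x)]
  simpa using wW_bound ν hm h x

/-- first derivative of the integral -/
theorem int_deriv (hv : ∀ t, HasDerivAt v (v1 t) t) (hg : ∀ j, 0 < g j) (hm : ∀ t, m ≤ v t) (he : 0 < e)
    (hb : ∀ s, |v1 s| ≤ B * |s|) (hB0 : 0 ≤ B) (hv1m : Measurable v1) (t0 : ℝ) :
    HasDerivAt (fun t => ∫ x : EV n, wW v e ν (wH g ρ t) x)
      (∫ x : EV n, wf v1 ν (wH g ρ t0) ρ x * wW v e ν (wH g ρ t0) x) t0 := by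
  have hvm : Measurable v := (continuous_iff_continuousAt.2 fun t => (hv t).continuousAt).measurable
  have hR : ∀ t ∈ ball t0 1, |t| ≤ |t0| + 1 := by
    intro t ht
    rw [mem_ball, Real.dist_eq] at ht
    have := abs_sub_abs_le_abs_sub t t0
    linarith
  have hC0 : 0 ≤ ∑ j, |ρ j| * (B * cK ν g ρ j (|t0| + 1) ^ 2) :=
    Finset.sum_nonneg fun j _ => mul_nonneg (abs_nonneg _) (mul_nonneg hB0 (sq_nonneg _))
  have key := hasDerivAt_integral_of_dominated_loc_of_deriv_le (μ := (volume : Measure (EV n)))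
    (F := fun t x => wW v e ν (wH g ρ t) x)
    (F' := fun t x => wf v1 ν (wH g ρ t) ρ x * wW v e ν (wH g ρ t) x) (x₀ := t0)
    (bound := fun x => ((∑ j, |ρ j| * (B * cK ν g ρ j (|t0| + 1) ^ 2)) * Real.exp (-(J * m))) *
      (‖x‖ ^ 2 * Real.exp (-(e * ‖x‖ ^ 2)))) (s := ball t0 1) (ball_mem_nhds t0 one_pos)
    (Eventually.of_forall fun t => (wW_meas ν hvm _).aestronglyMeasurable)
    (wW_int ν hm he hvm _)
    ((wf_meas ν hv1m _ _).mul (wW_meas ν hvm _)).aestronglyMeasurable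
    (Eventually.of_forall fun x t ht => by
      have h1 := wf_bound ν g ρ hg hb hB0 x (hR t ht)
      have h2 := wW_bound (e := e) ν hm (wH g ρ t) x
      rw [Real.norm_eq_abs, abs_mul, abs_of_pos (wW_pos ν (wH g ρ t) x)]
      calc |wf v1 ν (wH g ρ t) ρ x| * wW v e ν (wH g ρ t) x
          ≤ ((∑ j, |ρ j| * (B * cK ν g ρ j (|t0| + 1) ^ 2)) * ‖x‖ ^ 2) *
            (Real.exp (-(J * m)) * Real.exp (-(e * ‖x‖ ^ 2))) :=
            mul_le_mul h1 h2 (wW_pos ν _ x).le (mul_nonneg hC0 (by positivity))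
        _ = _ := by ring)
    ((integrable_pow_gauss he 2).const_mul _)
    (Eventually.of_forall fun x t _ => wW_deriv ν g ρ hv hg x t)
  exact key.2

theorem wfW_int (hg : ∀ j, 0 < g j) (hm : ∀ t, m ≤ v t) (he : 0 < e)
    (hb : ∀ s, |v1 s| ≤ B * |s|) (hB0 : 0 ≤ B) (hvm : Measurable v) (hv1m : Measurable v1) (t : ℝ) :
    Integrable (fun x : EV n => wf v1 ν (wH g ρ t) ρ x * wW v e ν (wH g ρ t) x) := by
  have hC0 : 0 ≤ ∑ j, |ρ j| * (B * cK ν g ρ j |t| ^ 2) :=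
    Finset.sum_nonneg fun j _ => mul_nonneg (abs_nonneg _) (mul_nonneg hB0 (sq_nonneg _))
  refine ((integrable_pow_gauss he 2).const_mul ((∑ j, |ρ j| * (B * cK ν g ρ j |t| ^ 2)) * Real.exp (-(J * m)))).mono'
    ((wf_meas ν hv1m _ _).mul (wW_meas ν hvm _)).aestronglyMeasurable (Eventually.of_forall fun x => ?_)
  have h1 := wf_bound ν g ρ hg hb hB0 x (le_refl |t|)
  have h2 := wW_bound (e := e) ν hm (wH g ρ t) x
  rw [Real.norm_eq_abs, abs_mul, abs_of_pos (wW_pos ν (wH g ρ t) x)]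
  calc |wf v1 ν (wH g ρ t) ρ x| * wW v e ν (wH g ρ t) x
      ≤ ((∑ j, |ρ j| * (B * cK ν g ρ j |t| ^ 2)) * ‖x‖ ^ 2) *
        (Real.exp (-(J * m)) * Real.exp (-(e * ‖x‖ ^ 2))) :=
        mul_le_mul h1 h2 (wW_pos ν _ x).le (mul_nonneg hC0 (by positivity))
    _ = _ := by ring

/-- the second integrand is bounded by a Gaussian moment -/
theorem w2_bound (hg : ∀ j, 0 < g j) (hm : ∀ t, m ≤ v t)
    (hb : ∀ s, |v1 s| ≤ B * |s|) (hB : ∀ t, |v2 t| ≤ B) (hB0 : 0 ≤ B) (x : EV n) {t R : ℝ} (ht : |t| ≤ R) :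
    |(wf v1 ν (wH g ρ t) ρ x ^ 2 - wq v1 v2 ν (wH g ρ t) ρ x) * wW v e ν (wH g ρ t) x| ≤
      ((∑ j, |ρ j| * (B * cK ν g ρ j R ^ 2)) ^ 2 * Real.exp (-(J * m))) * (‖x‖ ^ 4 * Real.exp (-(e * ‖x‖ ^ 2))) +
      ((∑ j, ρ j ^ 2 * (2 * B * cK ν g ρ j R ^ 2)) * Real.exp (-(J * m))) * (‖x‖ ^ 2 * Real.exp (-(e * ‖x‖ ^ 2))) := by
  have h1 := wf_bound ν g ρ hg hb hB0 x ht
  have h1' := wq_bound ν g ρ hg hb hB hB0 x ht
  have h2 := wW_bound (e := e) ν hm (wH g ρ t) x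
  have hC0 : 0 ≤ ∑ j, |ρ j| * (B * cK ν g ρ j R ^ 2) :=
    Finset.sum_nonneg fun j _ => mul_nonneg (abs_nonneg _) (mul_nonneg hB0 (sq_nonneg _))
  have hC1 : 0 ≤ ∑ j, ρ j ^ 2 * (2 * B * cK ν g ρ j R ^ 2) :=
    Finset.sum_nonneg fun j _ => mul_nonneg (sq_nonneg _) (mul_nonneg (by positivity) (sq_nonneg _))
  rw [abs_mul, abs_of_pos (wW_pos ν (wH g ρ t) x)]
  have h3 : |wf v1 ν (wH g ρ t) ρ x ^ 2 - wq v1 v2 ν (wH g ρ t) ρ x| ≤
      ((∑ j, |ρ j| * (B * cK ν g ρ j R ^ 2)) * ‖x‖ ^ 2) ^ 2 + (∑ j, ρ j ^ 2 * (2 * B * cK ν g ρ j R ^ 2)) * ‖x‖ ^ 2 := by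
    refine (abs_sub _ _).trans (add_le_add ?_ h1')
    rw [abs_pow]
    exact pow_le_pow_left₀ (abs_nonneg _) h1 2
  calc _ ≤ (((∑ j, |ρ j| * (B * cK ν g ρ j R ^ 2)) * ‖x‖ ^ 2) ^ 2 +
        (∑ j, ρ j ^ 2 * (2 * B * cK ν g ρ j R ^ 2)) * ‖x‖ ^ 2) *
          (Real.exp (-(J * m)) * Real.exp (-(e * ‖x‖ ^ 2))) :=
        mul_le_mul h3 h2 (wW_pos ν _ x).le (by positivity)
    _ = _ := by ring

/-- second derivative of the integral -/
theorem int_deriv2 (hv : ∀ t, HasDerivAt v (v1 t) t) (hv1 : ∀ t, HasDerivAt v1 (v2 t) t) (hg : ∀ j, 0 < g j)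
    (hm : ∀ t, m ≤ v t) (he : 0 < e)
    (hb : ∀ s, |v1 s| ≤ B * |s|) (hB : ∀ t, |v2 t| ≤ B) (hB0 : 0 ≤ B) (t0 : ℝ) :
    HasDerivAt (fun t => ∫ x : EV n, wf v1 ν (wH g ρ t) ρ x * wW v e ν (wH g ρ t) x)
      (∫ x : EV n, (wf v1 ν (wH g ρ t0) ρ x ^ 2 - wq v1 v2 ν (wH g ρ t0) ρ x) * wW v e ν (wH g ρ t0) x) t0 := by
  have hvm : Measurable v := (continuous_iff_continuousAt.2 fun t => (hv t).continuousAt).measurable
  have hv1m : Measurable v1 := (continuous_iff_continuousAt.2 fun t => (hv1 t).continuousAt).measurable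
  have hv2m : Measurable v2 := by
    have : v2 = deriv v1 := funext fun t => (hv1 t).deriv.symm
    rw [this]
    exact measurable_deriv v1
  have hR : ∀ t ∈ ball t0 1, |t| ≤ |t0| + 1 := by
    intro t ht
    rw [mem_ball, Real.dist_eq] at ht
    have := abs_sub_abs_le_abs_sub t t0
    linarith
  have key := hasDerivAt_integral_of_dominated_loc_of_deriv_le (μ := (volume : Measure (EV n)))
    (F := fun t x => wf v1 ν (wH g ρ t) ρ x * wW v e ν (wH g ρ t) x)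
    (F' := fun t x => (wf v1 ν (wH g ρ t) ρ x ^ 2 - wq v1 v2 ν (wH g ρ t) ρ x) * wW v e ν (wH g ρ t) x) (x₀ := t0)
    (bound := fun x => ((∑ j, |ρ j| * (B * cK ν g ρ j (|t0| + 1) ^ 2)) ^ 2 * Real.exp (-(J * m))) *
        (‖x‖ ^ 4 * Real.exp (-(e * ‖x‖ ^ 2))) +
      ((∑ j, ρ j ^ 2 * (2 * B * cK ν g ρ j (|t0| + 1) ^ 2)) * Real.exp (-(J * m))) *
        (‖x‖ ^ 2 * Real.exp (-(e * ‖x‖ ^ 2)))) (s := ball t0 1) (ball_mem_nhds t0 one_pos)
    (Eventually.of_forall fun t => ((wf_meas ν hv1m _ _).mul (wW_meas ν hvm _)).aestronglyMeasurable)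
    (wfW_int ν g ρ hg hm he hb hB0 hvm hv1m t0)
    ((((wf_meas ν hv1m _ _).pow_const 2).sub (wq_meas ν hv1m hv2m _ _)).mul (wW_meas ν hvm _)).aestronglyMeasurable
    (Eventually.of_forall fun x t ht => by
      rw [Real.norm_eq_abs]
      exact w2_bound ν g ρ hg hm hb hB hB0 x (hR t ht))
    (((integrable_pow_gauss he 4).const_mul _).add ((integrable_pow_gauss he 2).const_mul _))
    (Eventually.of_forall fun x t _ => wfW_deriv ν g ρ hv hv1 hg x t)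
  exact key.2

theorem wqW_int (hg : ∀ j, 0 < g j) (hm : ∀ t, m ≤ v t) (he : 0 < e)
    (hb : ∀ s, |v1 s| ≤ B * |s|) (hB : ∀ t, |v2 t| ≤ B) (hB0 : 0 ≤ B) (hvm : Measurable v) (hv1m : Measurable v1)
    (hv2m : Measurable v2) (t : ℝ) :
    Integrable (fun x : EV n => wq v1 v2 ν (wH g ρ t) ρ x * wW v e ν (wH g ρ t) x) := by
  have hC0 : 0 ≤ ∑ j, ρ j ^ 2 * (2 * B * cK ν g ρ j |t| ^ 2) :=
    Finset.sum_nonneg fun j _ => mul_nonneg (sq_nonneg _) (mul_nonneg (by positivity) (sq_nonneg _))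
  refine ((integrable_pow_gauss he 2).const_mul ((∑ j, ρ j ^ 2 * (2 * B * cK ν g ρ j |t| ^ 2)) * Real.exp (-(J * m)))).mono'
    ((wq_meas ν hv1m hv2m _ _).mul (wW_meas ν hvm _)).aestronglyMeasurable (Eventually.of_forall fun x => ?_)
  have h1 := wq_bound ν g ρ hg hb hB hB0 x (le_refl |t|)
  have h2 := wW_bound (e := e) ν hm (wH g ρ t) x
  rw [Real.norm_eq_abs, abs_mul, abs_of_pos (wW_pos ν (wH g ρ t) x)]
  calc |wq v1 v2 ν (wH g ρ t) ρ x| * wW v e ν (wH g ρ t) x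
      ≤ ((∑ j, ρ j ^ 2 * (2 * B * cK ν g ρ j |t| ^ 2)) * ‖x‖ ^ 2) *
        (Real.exp (-(J * m)) * Real.exp (-(e * ‖x‖ ^ 2))) :=
        mul_le_mul h1 h2 (wW_pos ν _ x).le (mul_nonneg hC0 (by positivity))
    _ = _ := by ring

theorem wf2W_int (hg : ∀ j, 0 < g j) (hm : ∀ t, m ≤ v t) (he : 0 < e)
    (hb : ∀ s, |v1 s| ≤ B * |s|) (hB0 : 0 ≤ B) (hvm : Measurable v) (hv1m : Measurable v1) (t : ℝ) :
    Integrable (fun x : EV n => wf v1 ν (wH g ρ t) ρ x ^ 2 * wW v e ν (wH g ρ t) x) := by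
  refine ((integrable_pow_gauss he 4).const_mul ((∑ j, |ρ j| * (B * cK ν g ρ j |t| ^ 2)) ^ 2 * Real.exp (-(J * m)))).mono'
    (((wf_meas ν hv1m _ _).pow_const 2).mul (wW_meas ν hvm _)).aestronglyMeasurable (Eventually.of_forall fun x => ?_)
  have h1 := wf_bound ν g ρ hg hb hB0 x (le_refl |t|)
  have h2 := wW_bound (e := e) ν hm (wH g ρ t) x
  rw [Real.norm_eq_abs, abs_mul, abs_of_pos (wW_pos ν (wH g ρ t) x), abs_pow]
  calc |wf v1 ν (wH g ρ t) ρ x| ^ 2 * wW v e ν (wH g ρ t) x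
      ≤ ((∑ j, |ρ j| * (B * cK ν g ρ j |t| ^ 2)) * ‖x‖ ^ 2) ^ 2 *
        (Real.exp (-(J * m)) * Real.exp (-(e * ‖x‖ ^ 2))) :=
        mul_le_mul (pow_le_pow_left₀ (abs_nonneg _) h1 2) h2 (wW_pos ν _ x).le (by positivity)
    _ = _ := by ring

end

/-- the local inequality gives the log-concavity of `softInt` in the logarithms of the widths -/
theorem soft_of_loc {v v1 v2 : ℝ → ℝ} {e B m : ℝ} (hv : ∀ t, HasDerivAt v (v1 t) t)
    (hv1 : ∀ t, HasDerivAt v1 (v2 t) t) (hB : ∀ t, |v2 t| ≤ B) (h0 : v1 0 = 0) (hm : ∀ t, m ≤ v t) (he : 0 < e)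
    (H : LocSoft v v1 v2 e) (n J : ℕ) (ν : Fin J → EV n) (hn : 0 < n)
    (hν : ∀ x : EV n, (∀ j, (inner ℝ x (ν j) : ℝ) = 0) → x = 0) (g h : Fin J → ℝ) (t : ℝ)
    (hg : ∀ j, 0 < g j) (hh : ∀ j, 0 < h j) (ht0 : 0 ≤ t) (ht1 : t ≤ 1) :
    softInt v e ν g ^ (1 - t) * softInt v e ν h ^ t ≤ softInt v e ν (fun j => g j ^ (1 - t) * h j ^ t) := by
  have hB0 : 0 ≤ B := (abs_nonneg _).trans (hB 0)
  have hb := v1_bound hv1 hB h0
  have hvm : Measurable v := (continuous_iff_continuousAt.2 fun t => (hv t).continuousAt).measurable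
  have hv1m : Measurable v1 := (continuous_iff_continuousAt.2 fun t => (hv1 t).continuousAt).measurable
  have hv2m : Measurable v2 := by
    have : v2 = deriv v1 := funext fun t => (hv1 t).deriv.symm
    rw [this]
    exact measurable_deriv v1
  set ρ : Fin J → ℝ := fun j => Real.log (h j / g j) with hρ
  have hH : ∀ s, wH g ρ s = fun j => g j ^ (1 - s) * h j ^ s := by
    intro s
    funext j
    have h1 : h j = g j * Real.exp (ρ j) := by
      rw [hρ]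
      simp only
      rw [Real.exp_log (div_pos (hh j) (hg j))]
      field_simp [(hg j).ne']
    rw [wH, h1, Real.mul_rpow (hg j).le (Real.exp_pos _).le, ← Real.exp_mul, ← mul_assoc,
      ← Real.rpow_add (hg j)]
    simp
  let I : ℝ → ℝ := fun s => ∫ x : EV n, wW v e ν (wH g ρ s) x
  let I1 : ℝ → ℝ := fun s => ∫ x : EV n, wf v1 ν (wH g ρ s) ρ x * wW v e ν (wH g ρ s) x
  let I2 : ℝ → ℝ := fun s => ∫ x : EV n, (wf v1 ν (wH g ρ s) ρ x ^ 2 - wq v1 v2 ν (wH g ρ s) ρ x) *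
    wW v e ν (wH g ρ s) x
  have hI : ∀ s, HasDerivAt I (I1 s) s := fun s => int_deriv ν g ρ hv hg hm he hb hB0 hv1m s
  have hI1 : ∀ s, HasDerivAt I1 (I2 s) s := fun s => int_deriv2 ν g ρ hv hv1 hg hm he hb hB hB0 s
  have hpos : ∀ s, 0 < I s := fun s => integral_exp_pos (wW_int ν hm he hvm _)
  have hHp : ∀ s j, 0 < wH g ρ s j := fun s j => mul_pos (hg j) (Real.exp_pos _)
  have hI2 : ∀ s, I2 s * I s - I1 s * I1 s ≤ 0 := by
    intro s
    have h1 := H n J ν hn hν (wH g ρ s) ρ (hHp s)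
    have h2 : I2 s = (∫ x : EV n, wf v1 ν (wH g ρ s) ρ x ^ 2 * wW v e ν (wH g ρ s) x) -
        ∫ x : EV n, wq v1 v2 ν (wH g ρ s) ρ x * wW v e ν (wH g ρ s) x := by
      rw [← integral_sub (wf2W_int ν g ρ hg hm he hb hB0 hvm hv1m s)
        (wqW_int ν g ρ hg hm he hb hB hB0 hvm hv1m hv2m s)]
      refine integral_congr_ae (Eventually.of_forall fun x => ?_)
      simp only
      ring
    have h3 : I2 s * I s - I1 s * I1 s = (∫ x : EV n, wf v1 ν (wH g ρ s) ρ x ^ 2 * wW v e ν (wH g ρ s) x) * I s -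
        I1 s ^ 2 - I s * ∫ x : EV n, wq v1 v2 ν (wH g ρ s) ρ x * wW v e ν (wH g ρ s) x := by
      rw [h2]; ring
    rw [h3]
    simp only [I, I1]
    linarith
  have hconc : ConcaveOn ℝ univ fun s => Real.log (I s) := by
    refine concaveOn_of_hasDerivWithinAt2_nonpos (f' := fun s => I1 s / I s)
      (f'' := fun s => (I2 s * I s - I1 s * I1 s) / I s ^ 2) convex_univ ?_ ?_ ?_ ?_
    · exact fun s _ => ((hI s).log (hpos s).ne').continuousAt.continuousWithinAt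
    · exact fun s _ => ((hI s).log (hpos s).ne').hasDerivWithinAt
    · exact fun s _ => ((hI1 s).div (hI s) (hpos s).ne').hasDerivWithinAt
    · exact fun s _ => div_nonpos_of_nonpos_of_nonneg (hI2 s) (sq_nonneg _)
  have h1 := hconc.2 (mem_univ 0) (mem_univ 1) (sub_nonneg.2 ht1) ht0 (by ring)
  simp only [smul_eq_mul, mul_zero, mul_one, zero_add] at h1
  have e0 : I 0 = softInt v e ν g := by
    simp only [I, hH, softInt_eq]
    simp
  have e1 : I 1 = softInt v e ν h := by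
    simp only [I, hH, softInt_eq]
    simp
  have et : I t = softInt v e ν (fun j => g j ^ (1 - t) * h j ^ t) := by
    simp only [I, hH, softInt_eq]
  rw [← e0, ← e1, ← et]
  have p0 := hpos 0
  have p1 := hpos 1
  calc I 0 ^ (1 - t) * I 1 ^ t = Real.exp ((1 - t) * Real.log (I 0) + t * Real.log (I 1)) := by
        rw [Real.exp_add, Real.rpow_def_of_pos p0, Real.rpow_def_of_pos p1]
        congr 2 <;> ring
    _ ≤ Real.exp (Real.log (I t)) := Real.exp_le_exp.2 h1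
    _ = I t := Real.exp_log (hpos t)

end Vale.Agent.P227.End
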