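import Vale.Agent.P227.End.Soft

/-! # P227: local variance inequality => log-concavity of the soft integrals along lines -/

open MeasureTheory Set Metric Filter Topology
open scoped ENNReal NNReal
open Vale.Agent.P227.End

namespace Vale.Agent.P227.End.Par

/-- Gibbs weight of the soft slabs -/
noncomputable def softW {n J : ℕ} (v : ℝ → ℝ) (e : ℝ) (ν : Fin J → EV n) (h : Fin J → ℝ) (x : EV n) : ℝ :=
  Real.exp (-(∑ j, v ((inner ℝ x (ν j) : ℝ) / h j)) - e * ‖x‖ ^ 2)

/-- first logarithmic derivative of the weight in direction `ρ` -/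
noncomputable def softF {n J : ℕ} (v1 : ℝ → ℝ) (ν : Fin J → EV n) (h ρ : Fin J → ℝ) (x : EV n) : ℝ :=
  ∑ j, ρ j * (((inner ℝ x (ν j) : ℝ) / h j) * v1 ((inner ℝ x (ν j) : ℝ) / h j))

/-- second derivative term in direction `ρ` -/
noncomputable def softQ {n J : ℕ} (v1 v2 : ℝ → ℝ) (ν : Fin J → EV n) (h ρ : Fin J → ℝ) (x : EV n) : ℝ :=
  ∑ j, ρ j ^ 2 * (((inner ℝ x (ν j) : ℝ) / h j) * v1 ((inner ℝ x (ν j) : ℝ) / h j) +
    ((inner ℝ x (ν j) : ℝ) / h j) ^ 2 * v2 ((inner ℝ x (ν j) : ℝ) / h j))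

/-- the local variance inequality (unnormalised): `Var f ≤ E q` -/
def LocIneq (v v1 v2 : ℝ → ℝ) (e : ℝ) : Prop :=
  ∀ (n J : ℕ) (ν : Fin J → EV n), 0 < n → (∀ x : EV n, (∀ j, (inner ℝ x (ν j) : ℝ) = 0) → x = 0) →
    ∀ (h ρ : Fin J → ℝ), (∀ j, 0 < h j) →
    (∫ x : EV n, softW v e ν h x) * (∫ x : EV n, softF v1 ν h ρ x ^ 2 * softW v e ν h x)
      - (∫ x : EV n, softF v1 ν h ρ x * softW v e ν h x) ^ 2 ≤
    (∫ x : EV n, softW v e ν h x) * (∫ x : EV n, softQ v1 v2 ν h ρ x * softW v e ν h x)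

/-- `(1 + ‖x‖) ^ k * exp (-e ‖x‖²)` is dominated by `exp (-‖x‖)` -/
theorem pow_mul_exp_le {e : ℝ} (he : 0 < e) (k : ℕ) {r : ℝ} (hr : 0 ≤ r) :
    (1 + r) ^ k * Real.exp (-(e * r ^ 2)) ≤ (k.factorial * Real.exp (1 + 1 / e)) * Real.exp (-(1 * r)) := by
  have h1 : (1 + r) ^ k ≤ k.factorial * Real.exp (1 + r) := by
    have := Real.pow_div_factorial_le_exp (1 + r) (by positivity) k
    rwa [div_le_iff₀' (by exact_mod_cast Nat.factorial_pos _)] at this
  have h2 : Real.exp (-(e * r ^ 2)) ≤ Real.exp (1 / e - 2 * r) := by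
    refine Real.exp_le_exp.2 ?_
    have h3 : 0 ≤ e * (r - 1 / e) ^ 2 := by positivity
    have h4 : e * (r - 1 / e) ^ 2 = e * r ^ 2 - 2 * r + 1 / e := by
      field_simp
      ring
    linarith
  calc (1 + r) ^ k * Real.exp (-(e * r ^ 2)) ≤ (k.factorial * Real.exp (1 + r)) * Real.exp (1 / e - 2 * r) :=
        mul_le_mul h1 h2 (Real.exp_pos _).le (by positivity)
    _ = _ := by
      rw [mul_assoc, mul_assoc, ← Real.exp_add, ← Real.exp_add]
      congr 2
      ring

theorem integrable_pow_exp {n : ℕ} {e : ℝ} (he : 0 < e) (k : ℕ) (C : ℝ) :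
    Integrable (fun x : EV n => C * ((1 + ‖x‖) ^ k * Real.exp (-(e * ‖x‖ ^ 2)))) := by
  refine Integrable.const_mul ?_ C
  refine ((integrable_exp_neg_norm (n := n) one_pos).const_mul (k.factorial * Real.exp (1 + 1 / e))).mono' (by fun_prop)
    (Eventually.of_forall fun x => ?_)
  rw [Real.norm_eq_abs, abs_of_nonneg (by positivity)]
  exact pow_mul_exp_le he k (norm_nonneg _)

section line

variable {n J : ℕ} {v v1 v2 : ℝ → ℝ} {e m C : ℝ}

/-- derivative of the weight along the line -/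
theorem hasDerivAt_softW (hv : ∀ t, HasDerivAt v (v1 t) t) (ν : Fin J → EV n) (g ρ : Fin J → ℝ) (x : EV n) (t : ℝ) :
    HasDerivAt (fun t => softW v e ν (fun j => g j * Real.exp (ρ j * t)) x)
      (softF v1 ν (fun j => g j * Real.exp (ρ j * t)) ρ x * softW v e ν (fun j => g j * Real.exp (ρ j * t)) x) t := by
  have hs : ∀ j, HasDerivAt (fun t => (inner ℝ x (ν j) : ℝ) / (g j * Real.exp (ρ j * t)))
      (-(ρ j * ((inner ℝ x (ν j) : ℝ) / (g j * Real.exp (ρ j * t))))) t := by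
    intro j
    have h1 : HasDerivAt (fun t => ((inner ℝ x (ν j) : ℝ) / g j) * Real.exp (-(ρ j * t)))
        (((inner ℝ x (ν j) : ℝ) / g j) * (Real.exp (-(ρ j * t)) * (-(ρ j * 1)))) t :=
      ((((hasDerivAt_id t).const_mul (ρ j)).neg).exp).const_mul _
    have h2 : (fun t => (inner ℝ x (ν j) : ℝ) / (g j * Real.exp (ρ j * t))) =
        fun t => ((inner ℝ x (ν j) : ℝ) / g j) * Real.exp (-(ρ j * t)) := by
      funext t
      rw [Real.exp_neg, div_mul_eq_div_div]
      rfl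
    rw [h2]
    convert h1 using 1
    rw [Real.exp_neg, div_mul_eq_div_div]
    simp only [div_eq_mul_inv]
    ring
  have hG : HasDerivAt (fun t => -(∑ j, v ((inner ℝ x (ν j) : ℝ) / (g j * Real.exp (ρ j * t)))) - e * ‖x‖ ^ 2)
      (softF v1 ν (fun j => g j * Real.exp (ρ j * t)) ρ x) t := by
    have h1 : HasDerivAt (fun t => ∑ j, v ((inner ℝ x (ν j) : ℝ) / (g j * Real.exp (ρ j * t))))
        (∑ j, v1 ((inner ℝ x (ν j) : ℝ) / (g j * Real.exp (ρ j * t))) *
          (-(ρ j * ((inner ℝ x (ν j) : ℝ) / (g j * Real.exp (ρ j * t)))))) t :=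
      HasDerivAt.fun_sum fun j _ => (hv _).comp t (hs j)
    refine HasDerivAt.congr_deriv (h1.neg.sub_const (e * ‖x‖ ^ 2)) ?_
    unfold softF
    rw [← Finset.sum_neg_distrib]
    refine Finset.sum_congr rfl fun j _ => ?_
    ring
  have := hG.exp
  unfold softW
  convert this using 1
  ring

theorem hasDerivAt_softF (hv1 : ∀ t, HasDerivAt v1 (v2 t) t) (ν : Fin J → EV n) (g ρ : Fin J → ℝ) (x : EV n) (t : ℝ) :
    HasDerivAt (fun t => softF v1 ν (fun j => g j * Real.exp (ρ j * t)) ρ x)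
      (-(softQ v1 v2 ν (fun j => g j * Real.exp (ρ j * t)) ρ x)) t := by
  have hs : ∀ j, HasDerivAt (fun t => (inner ℝ x (ν j) : ℝ) / (g j * Real.exp (ρ j * t)))
      (-(ρ j * ((inner ℝ x (ν j) : ℝ) / (g j * Real.exp (ρ j * t))))) t := by
    intro j
    have h1 : HasDerivAt (fun t => ((inner ℝ x (ν j) : ℝ) / g j) * Real.exp (-(ρ j * t)))
        (((inner ℝ x (ν j) : ℝ) / g j) * (Real.exp (-(ρ j * t)) * (-(ρ j * 1)))) t :=
      ((((hasDerivAt_id t).const_mul (ρ j)).neg).exp).const_mul _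
    have h2 : (fun t => (inner ℝ x (ν j) : ℝ) / (g j * Real.exp (ρ j * t))) =
        fun t => ((inner ℝ x (ν j) : ℝ) / g j) * Real.exp (-(ρ j * t)) := by
      funext t
      rw [Real.exp_neg, div_mul_eq_div_div]
      rfl
    rw [h2]
    convert h1 using 1
    rw [Real.exp_neg, div_mul_eq_div_div]
    simp only [div_eq_mul_inv]
    ring
  have h1 : HasDerivAt (fun t => ∑ j, ρ j * (((inner ℝ x (ν j) : ℝ) / (g j * Real.exp (ρ j * t))) *
      v1 ((inner ℝ x (ν j) : ℝ) / (g j * Real.exp (ρ j * t)))))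
      (∑ j, ρ j * (-(ρ j * ((inner ℝ x (ν j) : ℝ) / (g j * Real.exp (ρ j * t)))) *
        v1 ((inner ℝ x (ν j) : ℝ) / (g j * Real.exp (ρ j * t))) +
        ((inner ℝ x (ν j) : ℝ) / (g j * Real.exp (ρ j * t))) *
        (v2 ((inner ℝ x (ν j) : ℝ) / (g j * Real.exp (ρ j * t))) *
          (-(ρ j * ((inner ℝ x (ν j) : ℝ) / (g j * Real.exp (ρ j * t)))))))) t :=
    HasDerivAt.fun_sum fun j _ => ((hs j).mul ((hv1 _).comp t (hs j))).const_mul (ρ j)
  unfold softF
  convert h1 using 1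
  unfold softQ
  rw [← Finset.sum_neg_distrib]
  refine Finset.sum_congr rfl fun j _ => ?_
  ring

/-- continuity in `x` -/
theorem continuous_softW (hvc : Continuous v) (ν : Fin J → EV n) (h : Fin J → ℝ) :
    Continuous (softW v e ν h) := by
  unfold softW
  fun_prop

theorem continuous_softF (hv1c : Continuous v1) (ν : Fin J → EV n) (h ρ : Fin J → ℝ) :
    Continuous (softF v1 ν h ρ) := by
  unfold softF
  fun_prop

theorem continuous_softQ (hv1c : Continuous v1) (hv2c : Continuous v2) (ν : Fin J → EV n) (h ρ : Fin J → ℝ) :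
    Continuous (softQ v1 v2 ν h ρ) := by
  unfold softQ
  fun_prop

theorem softW_pos (ν : Fin J → EV n) (h : Fin J → ℝ) (x : EV n) : 0 < softW v e ν h x := Real.exp_pos _

theorem softW_le (hvm : ∀ t, -m ≤ v t) (ν : Fin J → EV n) (h : Fin J → ℝ) (x : EV n) :
    softW v e ν h x ≤ Real.exp (J * m) * Real.exp (-(e * ‖x‖ ^ 2)) := by
  unfold softW
  rw [← Real.exp_add]
  refine Real.exp_le_exp.2 ?_
  have h1 : ∑ _j : Fin J, (-m) ≤ ∑ j, v ((inner ℝ x (ν j) : ℝ) / h j) := Finset.sum_le_sum fun j _ => hvm _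
  simp only [Finset.sum_const, Finset.card_univ, Fintype.card_fin, nsmul_eq_mul] at h1
  linarith

/-- uniform polynomial bounds near `t0` -/
theorem softF_bound (hC : 0 ≤ C) (hv1b : ∀ t, |v1 t| ≤ C * (1 + |t|)) (hv2b : ∀ t, |v2 t| ≤ C) (ν : Fin J → EV n)
    {g : Fin J → ℝ} (hg : ∀ j, 0 < g j) (ρ : Fin J → ℝ) (t0 : ℝ) :
    ∃ A : ℝ, 0 ≤ A ∧ ∀ t ∈ ball t0 1, ∀ x : EV n,
      |softF v1 ν (fun j => g j * Real.exp (ρ j * t)) ρ x| ≤ A * (1 + ‖x‖) ^ 2 ∧
      |softQ v1 v2 ν (fun j => g j * Real.exp (ρ j * t)) ρ x| ≤ A * (1 + ‖x‖) ^ 2 := by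
  -- common bound for `s_j`
  let K : Fin J → ℝ := fun j => ‖ν j‖ / g j * Real.exp (|ρ j| * (|t0| + 1))
  have hK : ∀ j, 0 ≤ K j := fun j => by
    have := hg j
    positivity
  have hs : ∀ j, ∀ t ∈ ball t0 1, ∀ x : EV n, |(inner ℝ x (ν j) : ℝ) / (g j * Real.exp (ρ j * t))| ≤ K j * ‖x‖ := by
    intro j t ht x
    have ht' : |t| ≤ |t0| + 1 := by
      rw [mem_ball, Real.dist_eq] at ht
      have := abs_sub_abs_le_abs_sub t t0
      linarith
    rw [abs_div, abs_of_pos (mul_pos (hg j) (Real.exp_pos _)), div_le_iff₀ (mul_pos (hg j) (Real.exp_pos _))]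
    have h1 : |(inner ℝ x (ν j) : ℝ)| ≤ ‖x‖ * ‖ν j‖ := abs_real_inner_le_norm _ _
    have h2 : (1 : ℝ) ≤ Real.exp (|ρ j| * (|t0| + 1)) * Real.exp (ρ j * t) := by
      rw [← Real.exp_add]
      refine Real.one_le_exp ?_
      have h3 : |ρ j * t| ≤ |ρ j| * (|t0| + 1) := by
        rw [abs_mul]
        exact mul_le_mul_of_nonneg_left ht' (abs_nonneg _)
      have := neg_abs_le (ρ j * t)
      linarith
    calc |(inner ℝ x (ν j) : ℝ)| ≤ (‖x‖ * ‖ν j‖) * 1 := by linarith
      _ ≤ (‖x‖ * ‖ν j‖) * (Real.exp (|ρ j| * (|t0| + 1)) * Real.exp (ρ j * t)) :=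
        mul_le_mul_of_nonneg_left h2 (by positivity)
      _ = K j * ‖x‖ * (g j * Real.exp (ρ j * t)) := by
        have := (hg j).ne'
        simp only [K]
        field_simp
  have hterm : ∀ j, ∀ t ∈ ball t0 1, ∀ x : EV n,
      |((inner ℝ x (ν j) : ℝ) / (g j * Real.exp (ρ j * t))) * v1 ((inner ℝ x (ν j) : ℝ) / (g j * Real.exp (ρ j * t)))|
        ≤ (C * (1 + K j) ^ 2) * (1 + ‖x‖) ^ 2 := by
    intro j t ht x
    have h1 := hs j t ht x
    have h2 := hv1b ((inner ℝ x (ν j) : ℝ) / (g j * Real.exp (ρ j * t)))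
    rw [abs_mul]
    have hx := norm_nonneg x
    have h3 : K j * ‖x‖ ≤ (1 + K j) * (1 + ‖x‖) := by nlinarith [hK j]
    have h4 : 1 + K j * ‖x‖ ≤ (1 + K j) * (1 + ‖x‖) := by nlinarith [hK j]
    calc |(inner ℝ x (ν j) : ℝ) / (g j * Real.exp (ρ j * t))| * |v1 ((inner ℝ x (ν j) : ℝ) / (g j * Real.exp (ρ j * t)))|
        ≤ ((1 + K j) * (1 + ‖x‖)) * (C * ((1 + K j) * (1 + ‖x‖))) := by
          refine mul_le_mul (h1.trans h3) (h2.trans (mul_le_mul_of_nonneg_left (by linarith) hC)) (abs_nonneg _)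
            (by have := hK j; positivity)
      _ = _ := by ring
  have hterm2 : ∀ j, ∀ t ∈ ball t0 1, ∀ x : EV n,
      |((inner ℝ x (ν j) : ℝ) / (g j * Real.exp (ρ j * t))) ^ 2 * v2 ((inner ℝ x (ν j) : ℝ) / (g j * Real.exp (ρ j * t)))|
        ≤ (C * (1 + K j) ^ 2) * (1 + ‖x‖) ^ 2 := by
    intro j t ht x
    have h1 := hs j t ht x
    have h2 := hv2b ((inner ℝ x (ν j) : ℝ) / (g j * Real.exp (ρ j * t)))
    rw [abs_mul, abs_pow]
    have hx := norm_nonneg x
    have h3 : K j * ‖x‖ ≤ (1 + K j) * (1 + ‖x‖) := by nlinarith [hK j]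
    calc |(inner ℝ x (ν j) : ℝ) / (g j * Real.exp (ρ j * t))| ^ 2 * |v2 ((inner ℝ x (ν j) : ℝ) / (g j * Real.exp (ρ j * t)))|
        ≤ ((1 + K j) * (1 + ‖x‖)) ^ 2 * C :=
          mul_le_mul (pow_le_pow_left₀ (abs_nonneg _) (h1.trans h3) 2) h2 (abs_nonneg _)
            (by have := hK j; positivity)
      _ = _ := by ring
  refine ⟨∑ j, (|ρ j| * (C * (1 + K j) ^ 2) + ρ j ^ 2 * (2 * (C * (1 + K j) ^ 2))), ?_, fun t ht x => ⟨?_, ?_⟩⟩
  · refine Finset.sum_nonneg fun j _ => ?_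
    have := hK j
    positivity
  · unfold softF
    refine (Finset.abs_sum_le_sum_abs _ _).trans ?_
    rw [Finset.sum_mul]
    refine Finset.sum_le_sum fun j _ => ?_
    rw [abs_mul]
    have h1 := mul_le_mul_of_nonneg_left (hterm j t ht x) (abs_nonneg (ρ j))
    have h2 : 0 ≤ ρ j ^ 2 * (2 * (C * (1 + K j) ^ 2)) * (1 + ‖x‖) ^ 2 := by
      have := hK j
      positivity
    calc _ ≤ _ := h1
      _ ≤ _ := by
        rw [add_mul]
        linarith
  · unfold softQ
    refine (Finset.abs_sum_le_sum_abs _ _).trans ?_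
    rw [Finset.sum_mul]
    refine Finset.sum_le_sum fun j _ => ?_
    rw [abs_mul, abs_of_nonneg (sq_nonneg (ρ j))]
    have h1 := abs_add_le (((inner ℝ x (ν j) : ℝ) / (g j * Real.exp (ρ j * t))) * v1 ((inner ℝ x (ν j) : ℝ) / (g j * Real.exp (ρ j * t))))
      (((inner ℝ x (ν j) : ℝ) / (g j * Real.exp (ρ j * t))) ^ 2 * v2 ((inner ℝ x (ν j) : ℝ) / (g j * Real.exp (ρ j * t))))
    have h2 := h1.trans (add_le_add (hterm j t ht x) (hterm2 j t ht x))
    have h3 := mul_le_mul_of_nonneg_left h2 (sq_nonneg (ρ j))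
    have h4 : 0 ≤ |ρ j| * (C * (1 + K j) ^ 2) * (1 + ‖x‖) ^ 2 := by
      have := hK j
      positivity
    calc _ ≤ _ := h3
      _ ≤ _ := by
        rw [add_mul]
        linarith

/-- integrability of a continuous function with a Gaussian bound -/
theorem integrable_of_bound (he : 0 < e) (k : ℕ) (A : ℝ) {F : EV n → ℝ} (hF : Continuous F)
    (hb : ∀ x, |F x| ≤ A * ((1 + ‖x‖) ^ k * Real.exp (-(e * ‖x‖ ^ 2)))) : Integrable F :=
  (integrable_pow_exp he k A).mono' hF.aestronglyMeasurable (Eventually.of_forall hb)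

theorem integrable_softW (he : 0 < e) (hvc : Continuous v) (hvm : ∀ t, -m ≤ v t) (ν : Fin J → EV n) (h : Fin J → ℝ) :
    Integrable (softW v e ν h) := by
  refine integrable_of_bound he 0 (Real.exp (J * m)) (continuous_softW hvc ν h) fun x => ?_
  rw [abs_of_pos (softW_pos ν h x)]
  simpa using softW_le hvm ν h x

/-- first and second derivative of the soft integral along the line -/
theorem line_deriv (he : 0 < e) (hC : 0 ≤ C) (hvm : ∀ t, -m ≤ v t) (hv : ∀ t, HasDerivAt v (v1 t) t)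
    (hv1 : ∀ t, HasDerivAt v1 (v2 t) t) (hv2c : Continuous v2) (hv1b : ∀ t, |v1 t| ≤ C * (1 + |t|))
    (hv2b : ∀ t, |v2 t| ≤ C) (ν : Fin J → EV n) {g : Fin J → ℝ} (hg : ∀ j, 0 < g j) (ρ : Fin J → ℝ) (t : ℝ) :
    HasDerivAt (fun t => ∫ x : EV n, softW v e ν (fun j => g j * Real.exp (ρ j * t)) x)
      (∫ x : EV n, softF v1 ν (fun j => g j * Real.exp (ρ j * t)) ρ x * softW v e ν (fun j => g j * Real.exp (ρ j * t)) x) t ∧
    HasDerivAt (fun t => ∫ x : EV n, softF v1 ν (fun j => g j * Real.exp (ρ j * t)) ρ x *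
        softW v e ν (fun j => g j * Real.exp (ρ j * t)) x)
      (∫ x : EV n, (softF v1 ν (fun j => g j * Real.exp (ρ j * t)) ρ x ^ 2 -
        softQ v1 v2 ν (fun j => g j * Real.exp (ρ j * t)) ρ x) * softW v e ν (fun j => g j * Real.exp (ρ j * t)) x) t := by
  have hvc : Continuous v := continuous_iff_continuousAt.2 fun t => (hv t).continuousAt
  have hv1c : Continuous v1 := continuous_iff_continuousAt.2 fun t => (hv1 t).continuousAt
  obtain ⟨A, hA, hAb⟩ := softF_bound (n := n) hC hv1b hv2b ν hg ρ t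
  have hW : ∀ t' : ℝ, ∀ x : EV n, softW v e ν (fun j => g j * Real.exp (ρ j * t')) x ≤
      Real.exp (J * m) * Real.exp (-(e * ‖x‖ ^ 2)) := fun t' x => softW_le hvm ν _ x
  have hmem : t ∈ ball t 1 := mem_ball_self one_pos
  constructor
  · refine (hasDerivAt_integral_of_dominated_loc_of_deriv_le (μ := volume) (ball_mem_nhds t one_pos)
      (F := fun t' x => softW v e ν (fun j => g j * Real.exp (ρ j * t')) x)
      (F' := fun t' x => softF v1 ν (fun j => g j * Real.exp (ρ j * t')) ρ x *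
        softW v e ν (fun j => g j * Real.exp (ρ j * t')) x)
      (bound := fun x => (A * Real.exp (J * m)) * ((1 + ‖x‖) ^ 2 * Real.exp (-(e * ‖x‖ ^ 2))))
      (Eventually.of_forall fun t' => (continuous_softW hvc ν _).aestronglyMeasurable)
      (integrable_softW he hvc hvm ν _)
      ((continuous_softF hv1c ν _ ρ).mul (continuous_softW hvc ν _)).aestronglyMeasurable
      (Eventually.of_forall fun x t' ht' => ?_) (integrable_pow_exp he 2 _)
      (Eventually.of_forall fun x t' _ => hasDerivAt_softW hv ν g ρ x t')).2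
    rw [Real.norm_eq_abs, abs_mul, abs_of_pos (softW_pos ν _ x)]
    calc _ ≤ (A * (1 + ‖x‖) ^ 2) * (Real.exp (J * m) * Real.exp (-(e * ‖x‖ ^ 2))) :=
          mul_le_mul (hAb t' ht' x).1 (hW t' x) (softW_pos ν _ x).le (by positivity)
      _ = _ := by ring
  · refine (hasDerivAt_integral_of_dominated_loc_of_deriv_le (μ := volume) (ball_mem_nhds t one_pos)
      (F := fun t' x => softF v1 ν (fun j => g j * Real.exp (ρ j * t')) ρ x *
        softW v e ν (fun j => g j * Real.exp (ρ j * t')) x)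
      (F' := fun t' x => (softF v1 ν (fun j => g j * Real.exp (ρ j * t')) ρ x ^ 2 -
        softQ v1 v2 ν (fun j => g j * Real.exp (ρ j * t')) ρ x) * softW v e ν (fun j => g j * Real.exp (ρ j * t')) x)
      (bound := fun x => ((A ^ 2 + A) * Real.exp (J * m)) * ((1 + ‖x‖) ^ 4 * Real.exp (-(e * ‖x‖ ^ 2))))
      (Eventually.of_forall fun t' => ((continuous_softF hv1c ν _ ρ).mul (continuous_softW hvc ν _)).aestronglyMeasurable)
      ?_ ?_
      (Eventually.of_forall fun x t' ht' => ?_) (integrable_pow_exp he 4 _)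
      (Eventually.of_forall fun x t' _ => ?_)).2
    · refine integrable_of_bound he 2 (A * Real.exp (J * m))
        ((continuous_softF hv1c ν _ ρ).mul (continuous_softW hvc ν _)) fun x => ?_
      rw [abs_mul, abs_of_pos (softW_pos ν _ x)]
      calc _ ≤ (A * (1 + ‖x‖) ^ 2) * (Real.exp (J * m) * Real.exp (-(e * ‖x‖ ^ 2))) :=
            mul_le_mul (hAb t hmem x).1 (hW t x) (softW_pos ν _ x).le (by positivity)
        _ = _ := by ring
    · exact ((((continuous_softF hv1c ν _ ρ).pow 2).sub (continuous_softQ hv1c hv2c ν _ ρ)).mul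
        (continuous_softW hvc ν _)).aestronglyMeasurable
    · rw [Real.norm_eq_abs, abs_mul, abs_of_pos (softW_pos ν _ x)]
      have h1 := (hAb t' ht' x).1
      have h2 := (hAb t' ht' x).2
      have hx : 1 ≤ 1 + ‖x‖ := by linarith [norm_nonneg x]
      have h3 : |softF v1 ν (fun j => g j * Real.exp (ρ j * t')) ρ x ^ 2 -
          softQ v1 v2 ν (fun j => g j * Real.exp (ρ j * t')) ρ x| ≤ (A ^ 2 + A) * (1 + ‖x‖) ^ 4 := by
        refine (abs_sub _ _).trans ?_
        rw [abs_pow]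
        have h4 : |softF v1 ν (fun j => g j * Real.exp (ρ j * t')) ρ x| ^ 2 ≤ (A * (1 + ‖x‖) ^ 2) ^ 2 :=
          pow_le_pow_left₀ (abs_nonneg _) h1 2
        have h5 : (1 + ‖x‖) ^ 2 ≤ (1 + ‖x‖) ^ 4 := pow_le_pow_right₀ hx (by norm_num)
        have h6 : A * (1 + ‖x‖) ^ 2 ≤ A * (1 + ‖x‖) ^ 4 := mul_le_mul_of_nonneg_left h5 hA
        calc _ ≤ (A * (1 + ‖x‖) ^ 2) ^ 2 + A * (1 + ‖x‖) ^ 4 := add_le_add h4 (h2.trans h6)
          _ = _ := by ring
      calc _ ≤ ((A ^ 2 + A) * (1 + ‖x‖) ^ 4) * (Real.exp (J * m) * Real.exp (-(e * ‖x‖ ^ 2))) :=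
            mul_le_mul h3 (hW t' x) (softW_pos ν _ x).le (by positivity)
        _ = _ := by ring
    · have h1 := (hasDerivAt_softF hv1 ν g ρ x t').mul (hasDerivAt_softW (e := e) hv ν g ρ x t')
      refine HasDerivAt.congr_deriv h1 ?_
      ring

/-- log-concavity along lines from the local inequality -/
theorem line_concave (he : 0 < e) (hC : 0 ≤ C) (hvm : ∀ t, -m ≤ v t) (hv : ∀ t, HasDerivAt v (v1 t) t)
    (hv1 : ∀ t, HasDerivAt v1 (v2 t) t) (hv2c : Continuous v2) (hv1b : ∀ t, |v1 t| ≤ C * (1 + |t|))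
    (hv2b : ∀ t, |v2 t| ≤ C) (hloc : LocIneq v v1 v2 e) (hn : 0 < n) (ν : Fin J → EV n)
    (hν : ∀ x : EV n, (∀ j, (inner ℝ x (ν j) : ℝ) = 0) → x = 0) {g : Fin J → ℝ} (hg : ∀ j, 0 < g j) (ρ : Fin J → ℝ) :
    ConcaveOn ℝ univ (fun t => Real.log (∫ x : EV n, softW v e ν (fun j => g j * Real.exp (ρ j * t)) x)) := by
  have hvc : Continuous v := continuous_iff_continuousAt.2 fun t => (hv t).continuousAt
  have hv1c : Continuous v1 := continuous_iff_continuousAt.2 fun t => (hv1 t).continuousAt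
  set F : ℝ → ℝ := fun t => ∫ x : EV n, softW v e ν (fun j => g j * Real.exp (ρ j * t)) x with hF
  set F1 : ℝ → ℝ := fun t => ∫ x : EV n, softF v1 ν (fun j => g j * Real.exp (ρ j * t)) ρ x *
        softW v e ν (fun j => g j * Real.exp (ρ j * t)) x with hF1
  set F2 : ℝ → ℝ := fun t => ∫ x : EV n, (softF v1 ν (fun j => g j * Real.exp (ρ j * t)) ρ x ^ 2 -
        softQ v1 v2 ν (fun j => g j * Real.exp (ρ j * t)) ρ x) * softW v e ν (fun j => g j * Real.exp (ρ j * t)) x with hF2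
  have hFpos : ∀ t, 0 < F t := fun t => by
    rw [hF]
    exact integral_exp_pos (integrable_softW (m := m) he hvc hvm ν _)
  have hd1 : ∀ t, HasDerivAt F (F1 t) t := fun t => (line_deriv he hC hvm hv hv1 hv2c hv1b hv2b ν hg ρ t).1
  have hd2 : ∀ t, HasDerivAt F1 (F2 t) t := fun t => (line_deriv he hC hvm hv hv1 hv2c hv1b hv2b ν hg ρ t).2
  have hL1 : ∀ t, HasDerivAt (fun t => Real.log (F t)) (F1 t / F t) t := fun t => (hd1 t).log (hFpos t).ne'
  have hder : deriv (fun t => Real.log (F t)) = fun t => F1 t / F t := funext fun t => (hL1 t).deriv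
  have hL2 : ∀ t, HasDerivAt (fun t => F1 t / F t) ((F2 t * F t - F1 t * F1 t) / F t ^ 2) t := fun t =>
    (hd2 t).div (hd1 t) (hFpos t).ne'
  refine concaveOn_univ_of_deriv2_nonpos (fun t => (hL1 t).differentiableAt) ?_ fun t => ?_
  · rw [hder]
    exact fun t => (hL2 t).differentiableAt
  · have h2 : deriv^[2] (fun t => Real.log (F t)) t = (F2 t * F t - F1 t * F1 t) / F t ^ 2 := by
      simp only [Function.iterate_succ, Function.iterate_zero, Function.comp, id]
      rw [hder]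
      exact (hL2 t).deriv
    rw [h2]
    refine div_nonpos_of_nonpos_of_nonneg ?_ (sq_nonneg _)
    have h3 := hloc n J ν hn hν (fun j => g j * Real.exp (ρ j * t)) ρ (fun j => mul_pos (hg j) (Real.exp_pos _))
    obtain ⟨A, hA, hAb⟩ := softF_bound (n := n) hC hv1b hv2b ν hg ρ t
    have hmem : t ∈ ball t 1 := mem_ball_self one_pos
    have hW : ∀ x : EV n, softW v e ν (fun j => g j * Real.exp (ρ j * t)) x ≤
      Real.exp (J * m) * Real.exp (-(e * ‖x‖ ^ 2)) := fun x => softW_le hvm ν _ x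
    have hi1 : Integrable (fun x : EV n => softF v1 ν (fun j => g j * Real.exp (ρ j * t)) ρ x ^ 2 *
        softW v e ν (fun j => g j * Real.exp (ρ j * t)) x) := by
      refine integrable_of_bound he 4 (A ^ 2 * Real.exp (J * m))
        (((continuous_softF hv1c ν _ ρ).pow 2).mul (continuous_softW hvc ν _)) fun x => ?_
      rw [abs_mul, abs_of_pos (softW_pos ν _ x), abs_pow]
      calc _ ≤ (A * (1 + ‖x‖) ^ 2) ^ 2 * (Real.exp (J * m) * Real.exp (-(e * ‖x‖ ^ 2))) :=
            mul_le_mul (pow_le_pow_left₀ (abs_nonneg _) (hAb t hmem x).1 2) (hW x) (softW_pos ν _ x).le (by positivity)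
        _ = _ := by ring
    have hi2 : Integrable (fun x : EV n => softQ v1 v2 ν (fun j => g j * Real.exp (ρ j * t)) ρ x *
        softW v e ν (fun j => g j * Real.exp (ρ j * t)) x) := by
      refine integrable_of_bound he 2 (A * Real.exp (J * m))
        ((continuous_softQ hv1c hv2c ν _ ρ).mul (continuous_softW hvc ν _)) fun x => ?_
      rw [abs_mul, abs_of_pos (softW_pos ν _ x)]
      calc _ ≤ (A * (1 + ‖x‖) ^ 2) * (Real.exp (J * m) * Real.exp (-(e * ‖x‖ ^ 2))) :=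
            mul_le_mul (hAb t hmem x).2 (hW x) (softW_pos ν _ x).le (by positivity)
        _ = _ := by ring
    have h4 : F2 t = (∫ x : EV n, softF v1 ν (fun j => g j * Real.exp (ρ j * t)) ρ x ^ 2 *
        softW v e ν (fun j => g j * Real.exp (ρ j * t)) x) - ∫ x : EV n, softQ v1 v2 ν (fun j => g j * Real.exp (ρ j * t)) ρ x *
        softW v e ν (fun j => g j * Real.exp (ρ j * t)) x := by
      rw [hF2, ← integral_sub hi1 hi2]
      refine integral_congr_ae (Eventually.of_forall fun x => ?_)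
      simp only
      ring
    have h5 : F t = ∫ x : EV n, softW v e ν (fun j => g j * Real.exp (ρ j * t)) x := rfl
    have h6 : F1 t = ∫ x : EV n, softF v1 ν (fun j => g j * Real.exp (ρ j * t)) ρ x *
        softW v e ν (fun j => g j * Real.exp (ρ j * t)) x := rfl
    rw [h4]
    rw [← h5, ← h6] at h3
    nlinarith [h3]

/-- **the global inequality from the local one** -/
theorem soft_logconcave (he : 0 < e) (hC : 0 ≤ C) (hvm : ∀ t, -m ≤ v t) (hv : ∀ t, HasDerivAt v (v1 t) t)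
    (hv1 : ∀ t, HasDerivAt v1 (v2 t) t) (hv2c : Continuous v2) (hv1b : ∀ t, |v1 t| ≤ C * (1 + |t|))
    (hv2b : ∀ t, |v2 t| ≤ C) (hloc : LocIneq v v1 v2 e) (n J : ℕ) (ν : Fin J → EV n) (hn : 0 < n)
    (hν : ∀ x : EV n, (∀ j, (inner ℝ x (ν j) : ℝ) = 0) → x = 0) (g h : Fin J → ℝ) (t : ℝ) (hg : ∀ j, 0 < g j)
    (hh : ∀ j, 0 < h j) (ht0 : 0 ≤ t) (ht1 : t ≤ 1) :
    softInt v e ν g ^ (1 - t) * softInt v e ν h ^ t ≤ softInt v e ν (fun j => g j ^ (1 - t) * h j ^ t) := by
  have hvc : Continuous v := continuous_iff_continuousAt.2 fun t => (hv t).continuousAt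
  set ρ : Fin J → ℝ := fun j => Real.log (h j) - Real.log (g j) with hρ
  have hcc := line_concave he hC hvm hv hv1 hv2c hv1b hv2b hloc hn ν hν hg ρ
  have hpos : ∀ g' : Fin J → ℝ, 0 < softInt v e ν g' := fun g' =>
    integral_exp_pos (integrable_softW (m := m) he hvc hvm ν g')
  have h0 : (∫ x : EV n, softW v e ν (fun j => g j * Real.exp (ρ j * 0)) x) = softInt v e ν g := by
    have : (fun j => g j * Real.exp (ρ j * 0)) = g := by
      funext j
      simp
    rw [this]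
    rfl
  have h1 : (∫ x : EV n, softW v e ν (fun j => g j * Real.exp (ρ j * 1)) x) = softInt v e ν h := by
    have : (fun j => g j * Real.exp (ρ j * 1)) = h := by
      funext j
      rw [hρ, mul_one, Real.exp_sub, Real.exp_log (hh j), Real.exp_log (hg j)]
      have := (hg j).ne'
      field_simp
    rw [this]
    rfl
  have h2 : (∫ x : EV n, softW v e ν (fun j => g j * Real.exp (ρ j * t)) x) =
      softInt v e ν (fun j => g j ^ (1 - t) * h j ^ t) := by
    have : (fun j => g j * Real.exp (ρ j * t)) = fun j => g j ^ (1 - t) * h j ^ t := by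
      funext j
      rw [Real.rpow_def_of_pos (hg j), Real.rpow_def_of_pos (hh j), ← Real.exp_add, hρ]
      nth_rewrite 1 [← Real.exp_log (hg j)]
      rw [← Real.exp_add]
      congr 1
      ring
    rw [this]
    rfl
  have h3 := hcc.2 (mem_univ (0 : ℝ)) (mem_univ (1 : ℝ)) (by linarith : (0 : ℝ) ≤ 1 - t) ht0 (by ring)
  simp only [smul_eq_mul, mul_zero, zero_add, mul_one] at h3
  rw [show (1 - t) * Real.log (∫ x : EV n, softW v e ν (fun j => g j * Real.exp 0) x) =
    (1 - t) * Real.log (softInt v e ν g) by rw [← h0]; simp] at h3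
  rw [show (∫ x : EV n, softW v e ν (fun j => g j * Real.exp (ρ j)) x) = softInt v e ν h by
    rw [← h1]; simp, h2] at h3
  rw [← Real.log_le_log_iff (mul_pos (Real.rpow_pos_of_pos (hpos g) _) (Real.rpow_pos_of_pos (hpos h) _)) (hpos _),
    Real.log_mul (Real.rpow_pos_of_pos (hpos g) _).ne' (Real.rpow_pos_of_pos (hpos h) _).ne',
    Real.log_rpow (hpos g), Real.log_rpow (hpos h)]
  exact h3

end line

/-- the logarithmic Brunn-Minkowski inequality in all dimensions from the local inequality for a sequence of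
soft walls `v k` (with first two derivatives `v1 k`, `v2 k`) and Gaussian factors `e k` -/
theorem log_bm_of_loc (v v1 v2 : ℕ → ℝ → ℝ) (e C m : ℕ → ℝ) (he : ∀ k, 0 < e k) (hC : ∀ k, 0 ≤ C k)
    (hvm : ∀ k t, -m k ≤ v k t) (hv : ∀ k t, HasDerivAt (v k) (v1 k t) t)
    (hv1 : ∀ k t, HasDerivAt (v1 k) (v2 k t) t) (hv2c : ∀ k, Continuous (v2 k))
    (hv1b : ∀ k t, |v1 k t| ≤ C k * (1 + |t|)) (hv2b : ∀ k t, |v2 k t| ≤ C k)
    (hvb : ∀ k t, |t| - 1 ≤ v k t) (hv0 : ∀ t, |t| < 1 → Tendsto (fun k => v k t) atTop (𝓝 0))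
    (hv1' : ∀ t, 1 < |t| → Tendsto (fun k => v k t) atTop atTop) (he0 : Tendsto e atTop (𝓝 0))
    (hloc : ∀ k, LocIneq (v k) (v1 k) (v2 k) (e k))
    {n : ℕ} (hn : 0 < n) {K L : Set (EV n)} (hK : SymConvexBody K)
    (hL : SymConvexBody L) {t : ℝ} (ht0 : 0 ≤ t) (ht1 : t ≤ 1) :
    (volume K).toReal ^ (1 - t) * (volume L).toReal ^ t ≤ (volume (logComb t K L)).toReal :=
  log_bm_of_soft v e (fun k => continuous_iff_continuousAt.2 fun t => (hv k t).continuousAt) hvb hv0 hv1'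
    (fun k => (he k).le) he0 (fun k n J ν hn hν g h t hg hh ht0 ht1 =>
      soft_logconcave (he k) (hC k) (hvm k) (hv k) (hv1 k) (hv2c k) (hv1b k) (hv2b k) (hloc k) n J ν hn hν g h t hg hh
        ht0 ht1) hn hK hL ht0 ht1

end Vale.Agent.P227.End.Par
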