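import Vale.Agent.P227.M.Stmts

/-! # P227/M/END: ridge functions are pieces -/

open MeasureTheory Set Filter Topology

namespace Vale.Agent.P227.M.END

open Vale.Agent.P227.M

/-- an even smooth convex one-dimensional wall with all derivatives of order `≥ 2` bounded -/
structure RW (a a1 a2 : ℝ → ℝ) : Prop where
  smooth : ContDiff ℝ (⊤ : ℕ∞) a
  even : ∀ t, a (-t) = a t
  d1 : ∀ t, HasDerivAt a (a1 t) t
  d2 : ∀ t, HasDerivAt a1 (a2 t) t
  nonneg : ∀ t, 0 ≤ a2 t
  bdd : ∀ k : ℕ, 2 ≤ k → ∃ B : ℝ, ∀ t, |iteratedDeriv k a t| ≤ B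

variable {n : ℕ}

theorem inner_ei (i : Fin n) (x : E n) : (inner ℝ (ei i) x : ℝ) = x i := by
  simp [ei, EuclideanSpace.inner_single_left]

/-- derivative of a ridge function -/
theorem ridge_hasFDerivAt {a : ℝ → ℝ} {c : ℝ} {ν x : E n} (h : HasDerivAt a c (inner ℝ x ν)) :
    HasFDerivAt (fun x : E n => a (inner ℝ x ν)) (c • (innerSL ℝ ν)) x := by
  have h1 : HasFDerivAt (fun x : E n => (inner ℝ x ν : ℝ)) (innerSL ℝ ν) x := by
    have h2 := (innerSL ℝ ν).hasFDerivAt (x := x)
    refine h2.congr_of_eventuallyEq (Eventually.of_forall fun y => ?_)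
    rw [innerSL_apply_apply]
    exact real_inner_comm _ _
  exact h.comp_hasFDerivAt x h1

section sums
variable {N : ℕ} {a a1 a2 : Fin N → ℝ → ℝ} {μ : Fin N → E n} (w : Fin N → ℝ)

/-- derivative of a weighted sum of ridge functions -/
theorem pd_sum_ridge (h : ∀ j t, HasDerivAt (a j) (a1 j t) t) (i : Fin n) (x : E n) :
    pd i (fun x : E n => ∑ j, w j * a j (inner ℝ x (μ j))) x = ∑ j, w j * a1 j (inner ℝ x (μ j)) * (μ j) i := by
  have h1 : HasFDerivAt (fun x : E n => ∑ j, w j * a j (inner ℝ x (μ j)))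
      (∑ j, w j • (a1 j (inner ℝ x (μ j)) • (innerSL ℝ (μ j)))) x := by
    refine HasFDerivAt.fun_sum fun j _ => ?_
    exact (ridge_hasFDerivAt (h j _)).const_mul (w j)
  rw [pd, h1.fderiv, sum_apply]
  refine Finset.sum_congr rfl fun j _ => ?_
  rw [smul_apply, smul_apply, innerSL_apply_apply, smul_eq_mul, smul_eq_mul,
    real_inner_comm (ei i) (μ j), inner_ei]
  ring

end sums

/-- single ridge -/
theorem pd_ridge {a a1 : ℝ → ℝ} (h : ∀ t, HasDerivAt a (a1 t) t) (ν : E n) (i : Fin n) (x : E n) :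
    pd i (fun x : E n => a (inner ℝ x ν)) x = a1 (inner ℝ x ν) * ν i := by
  have := pd_sum_ridge (n := n) (N := 1) (a := fun _ => a) (a1 := fun _ => a1) (μ := fun _ => ν) (fun _ => 1) (fun _ => h) i x
  simpa using this

theorem hess_ridge {a a1 a2 : ℝ → ℝ} (h1 : ∀ t, HasDerivAt a (a1 t) t) (h2 : ∀ t, HasDerivAt a1 (a2 t) t) (ν : E n)
    (x : E n) (i j : Fin n) : hess (fun x : E n => a (inner ℝ x ν)) x i j = a2 (inner ℝ x ν) * ν i * ν j := by
  have e1 : pd j (fun x : E n => a (inner ℝ x ν)) = fun x => ν j * a1 (inner ℝ x ν) := by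
    funext y
    rw [pd_ridge h1, mul_comm]
  rw [hess, e1]
  have := pd_sum_ridge (n := n) (N := 1) (a := fun _ => a1) (a1 := fun _ => a2) (μ := fun _ => ν) (fun _ => ν j) (fun _ => h2) i x
  simp only [Finset.univ_unique, Finset.sum_singleton] at this
  rw [this]
  ring

theorem inner_eq_sum (x ν : E n) : (inner ℝ x ν : ℝ) = ∑ i, x i * ν i := by
  rw [PiLp.inner_apply]
  refine Finset.sum_congr rfl fun i _ => ?_
  simp [mul_comm]

theorem qf_ridge {a a1 a2 : ℝ → ℝ} (h1 : ∀ t, HasDerivAt a (a1 t) t) (h2 : ∀ t, HasDerivAt a1 (a2 t) t) (ν x z : E n) :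
    qf (hess (fun x : E n => a (inner ℝ x ν)) x) z = a2 (inner ℝ x ν) * (inner ℝ z ν : ℝ) ^ 2 := by
  rw [qf, inner_eq_sum z ν, sq, Finset.sum_mul_sum, Finset.mul_sum]
  refine Finset.sum_congr rfl fun i _ => ?_
  rw [Finset.mul_sum]
  refine Finset.sum_congr rfl fun j _ => ?_
  rw [hess_ridge h1 h2]
  ring

theorem sum_pd_ridge {a a1 : ℝ → ℝ} (h1 : ∀ t, HasDerivAt a (a1 t) t) (ν x : E n) :
    ∑ i, x i * pd i (fun x : E n => a (inner ℝ x ν)) x = (inner ℝ x ν : ℝ) * a1 (inner ℝ x ν) := by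
  have e : ∀ i, x i * pd i (fun x : E n => a (inner ℝ x ν)) x = (x i * ν i) * a1 (inner ℝ x ν) := by
    intro i
    rw [pd_ridge h1]
    ring
  rw [Finset.sum_congr rfl fun i _ => e i, ← Finset.sum_mul, ← inner_eq_sum]

theorem contDiff_ridge {a : ℝ → ℝ} {m : WithTop ℕ∞} (h : ContDiff ℝ m a) (ν : E n) : ContDiff ℝ m (fun x : E n => a (inner ℝ x ν)) :=
  h.comp (contDiff_id.inner ℝ contDiff_const)

/-- a ridge function of a wall is a piece -/
theorem RW.piece {a a1 a2 : ℝ → ℝ} (h : RW a a1 a2) (ν : E n) : Piece (fun x : E n => a (inner ℝ x ν)) where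
  smooth := contDiff_ridge h.smooth ν
  even x := by
    simp only [inner_neg_left]
    exact h.even _
  psd x z := by
    rw [qf_ridge h.d1 h.d2]
    exact mul_nonneg (h.nonneg _) (sq_nonneg _)
  bdd k hk := by
    obtain ⟨B, hB⟩ := h.bdd k hk
    refine ⟨B * ‖innerSL ℝ ν‖ ^ k, fun x => ?_⟩
    have e : (fun x : E n => a (inner ℝ x ν)) = a ∘ (innerSL ℝ ν) := by
      funext y
      simp only [Function.comp, innerSL_apply_apply]
      rw [real_inner_comm]
    rw [e, ContinuousLinearMap.iteratedFDeriv_comp_right (innerSL ℝ ν) h.smooth x (i := k) (by exact_mod_cast le_top)]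
    refine (ContinuousMultilinearMap.norm_compContinuousLinearMap_le _ _).trans ?_
    rw [norm_iteratedFDeriv_eq_norm_iteratedDeriv, Real.norm_eq_abs, Finset.prod_const, Finset.card_univ, Fintype.card_fin]
    exact mul_le_mul_of_nonneg_right (hB _) (by positivity)

/-- the Gaussian wall -/
theorem RW_sq {e : ℝ} (he : 0 ≤ e) : RW (fun t => e * t ^ 2) (fun t => 2 * e * t) (fun _ => 2 * e) where
  smooth := by fun_prop
  even t := by simp
  d1 t := by
    have := (hasDerivAt_pow 2 t).const_mul e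
    refine HasDerivAt.congr_deriv this ?_
    simp
    ring
  d2 t := by
    simpa using (hasDerivAt_id t).const_mul (2 * e)
  nonneg t := by positivity
  bdd k hk := by
    refine ⟨2 * e, fun t => ?_⟩
    have d1 : deriv (fun t : ℝ => e * t ^ 2) = fun t => 2 * e * t := by
      funext t
      have := (hasDerivAt_pow 2 t).const_mul e
      rw [this.deriv]
      simp
      ring
    have d2 : deriv (fun t : ℝ => 2 * e * t) = fun _ => 2 * e := by
      funext t
      simpa using ((hasDerivAt_id t).const_mul (2 * e)).deriv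
    obtain ⟨m, rfl⟩ : ∃ m, k = m + 2 := ⟨k - 2, by omega⟩
    rw [iteratedDeriv_succ', iteratedDeriv_succ', d1, d2]
    rcases Nat.eq_zero_or_pos m with rfl | hm
    · simp [abs_of_nonneg he]
    · have : iteratedDeriv m (fun _ : ℝ => 2 * e) t = 0 := by
        rw [iteratedDeriv_const]
        simp [hm.ne']
      rw [this]
      linarith [abs_zero (α := ℝ)]

end Vale.Agent.P227.M.END
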